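import Mathlib

/-! Definitions for P235: shortest-path metrics, distortion of embeddings into `L¹`, and the
constant `c₁(G)` of a graph. -/

namespace Vale.Agent.P235

/-- The shortest-path metric `d_{G,ℓ}` of the graph `G` with edge lengths `ℓ`: the infimum, over all
walks from `x` to `y`, of the sum of the lengths of the traversed edges. -/
noncomputable def pathDist {V : Type} (G : SimpleGraph V) (ℓ : Sym2 V → ℝ) (x y : V) : ℝ :=
  ⨅ p : G.Walk x y, (p.edges.map ℓ).sum

/-- `(X, d)` embeds into some `L¹(Ω, μ; ℝ)` with distortion at most `C`. -/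
def EmbedsL1 {X : Type} (d : X → X → ℝ) (C : ℝ) : Prop :=
  ∃ (Ω : Type) (_ : MeasurableSpace Ω) (μ : MeasureTheory.Measure Ω)
    (f : X → MeasureTheory.Lp ℝ 1 μ),
    ∀ x y, d x y ≤ ‖f x - f y‖ ∧ ‖f x - f y‖ ≤ C * d x y

/-- `c₁(G) ≤ C`: for all positive edge lengths, the shortest-path metric of `G` embeds into an
`L¹` space with distortion at most `C`. -/
def C1LE {V : Type} (G : SimpleGraph V) (C : ℝ) : Prop :=
  ∀ ℓ : Sym2 V → ℝ, (∀ e ∈ G.edgeSet, 0 < ℓ e) → EmbedsL1 (pathDist G ℓ) C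

end Vale.Agent.P235
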