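import Mathlib
import Vale.Agent.P235.Defs

set_option linter.unusedSectionVars false

open Finset

namespace Vale.Agent.P235

section Cuts

variable {V : Type} [Fintype V] [DecidableEq V]

/-- `1` if `S` separates `x` from `y`, else `0`. -/
noncomputable def sep (S : Finset V) (x y : V) : ℝ := if (x ∈ S ↔ y ∈ S) then 0 else 1

noncomputable def cutDist (w : Finset V → ℝ) (x y : V) : ℝ := ∑ S, w S * sep S x y

lemma sep_comm (S : Finset V) (x y : V) : sep S x y = sep S y x := by
  unfold sep; simp only [iff_comm]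

lemma sep_nonneg (S : Finset V) (x y : V) : 0 ≤ sep S x y := by
  unfold sep; split_ifs <;> norm_num

lemma cutDist_comm (w : Finset V → ℝ) (x y : V) : cutDist w x y = cutDist w y x := by
  unfold cutDist; simp only [sep_comm _ x y]

lemma cutDist_nonneg {w : Finset V → ℝ} (hw : ∀ S, 0 ≤ w S) (x y : V) : 0 ≤ cutDist w x y :=
  Finset.sum_nonneg fun S _ => mul_nonneg (hw S) (sep_nonneg S x y)

/-- the weight of the threshold cut `S` for the function `g` -/
noncomputable def lineWeight (g : V → ℝ) (S : Finset V) : ℝ :=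
  if h : S.Nonempty ∧ Sᶜ.Nonempty then max 0 (S.inf' h.1 g - Sᶜ.sup' h.2 g) else 0

lemma lineWeight_nonneg (g : V → ℝ) (S : Finset V) : 0 ≤ lineWeight g S := by
  unfold lineWeight; split_ifs
  · exact le_max_left _ _
  · exact le_rfl

open MeasureTheory in
lemma line_cut_aux (g : V → ℝ) (x y : V) (hxy : g y ≤ g x) :
    g x - g y = cutDist (lineWeight g) x y := by
  classical
  -- level sets
  let I : Finset V → Set ℝ := fun S => {t | ∀ z, z ∈ S ↔ t < g z}
  have hI : ∀ S (h : S.Nonempty ∧ Sᶜ.Nonempty), I S = Set.Ico (Sᶜ.sup' h.2 g) (S.inf' h.1 g) := by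
    intro S h
    ext t
    simp only [I, Set.mem_ofPred_eq, Set.mem_Ico, Finset.sup'_le_iff, Finset.lt_inf'_iff, mem_compl]
    constructor
    · intro ht
      exact ⟨fun z hz => not_lt.1 fun h' => hz ((ht z).2 h'), fun z hz => (ht z).1 hz⟩
    · rintro ⟨h1, h2⟩ z
      exact ⟨fun hz => h2 z hz, fun hz => by_contra fun hz' => absurd hz (not_lt.2 (h1 z hz'))⟩
  have hmeas : ∀ S, MeasurableSet (I S) := by
    intro S
    have : I S = ⋂ z, {t | z ∈ S ↔ t < g z} := by
      ext t; simp [I]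
    rw [this]
    refine MeasurableSet.iInter fun z => ?_
    by_cases hz : z ∈ S
    · simp only [hz, true_iff]; exact measurableSet_Iio
    · simp only [hz, false_iff, not_lt]; exact measurableSet_Ici
  let T : Finset (Finset V) := univ.filter fun S => x ∈ S ∧ y ∉ S
  have hunion : Set.Ico (g y) (g x) = ⋃ S ∈ T, I S := by
    ext t
    simp only [Set.mem_Ico, Set.mem_iUnion, T, mem_filter, mem_univ, true_and, I,
      Set.mem_ofPred_eq, exists_prop]
    constructor
    · rintro ⟨h1, h2⟩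
      refine ⟨univ.filter fun z => t < g z, ⟨by simpa using h2, by simpa using h1⟩, fun z => by simp⟩
    · rintro ⟨S, ⟨hx, hy⟩, hS⟩
      exact ⟨not_lt.1 fun h => hy ((hS y).2 h), (hS x).1 hx⟩
  have hdisj : Set.PairwiseDisjoint (T : Set (Finset V)) I := by
    intro S _ S' _ hne
    rw [Function.onFun, Set.disjoint_left]
    intro t ht ht'
    apply hne
    ext z
    rw [ht z, ht' z]
  have hvol : ∀ S ∈ T, volume.real (I S) = lineWeight g S := by
    intro S hS
    simp only [T, mem_filter, mem_univ, true_and] at hS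
    have h : S.Nonempty ∧ Sᶜ.Nonempty := ⟨⟨x, hS.1⟩, ⟨y, by simpa using hS.2⟩⟩
    rw [hI S h, lineWeight, dif_pos h, Real.volume_real_Ico, max_comm]
  have h1 : g x - g y = volume.real (Set.Ico (g y) (g x)) := by
    rw [Real.volume_real_Ico_of_le hxy]
  have hfin : ∀ S ∈ T, volume (I S) ≠ ⊤ := by
    intro S hS
    simp only [T, mem_filter, mem_univ, true_and] at hS
    have h : S.Nonempty ∧ Sᶜ.Nonempty := ⟨⟨x, hS.1⟩, ⟨y, by simpa using hS.2⟩⟩
    rw [hI S h]; simp
  rw [h1, hunion, measureReal_biUnion_finset hdisj (fun S _ => hmeas S) hfin,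
    Finset.sum_congr rfl hvol]
  unfold cutDist
  rw [Finset.sum_filter]
  refine Finset.sum_congr rfl fun S _ => ?_
  by_cases hx : x ∈ S <;> by_cases hy : y ∈ S
  · simp [sep, hx, hy]
  · simp [sep, hx, hy]
  · have h : S.Nonempty ∧ Sᶜ.Nonempty := ⟨⟨y, hy⟩, ⟨x, by simpa using hx⟩⟩
    have h0 : lineWeight g S = 0 := by
      rw [lineWeight, dif_pos h, max_eq_left]
      have h2 : S.inf' h.1 g ≤ g y := Finset.inf'_le _ hy
      have h3 : g x ≤ Sᶜ.sup' h.2 g := Finset.le_sup' _ (by simpa using hx)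
      linarith
    simp [h0]
  · simp [sep, hx, hy]

lemma line_cut (g : V → ℝ) (x y : V) : |g x - g y| = cutDist (lineWeight g) x y := by
  rcases le_total (g y) (g x) with h | h
  · rw [abs_of_nonneg (by linarith), line_cut_aux g x y h]
  · rw [abs_sub_comm, abs_of_nonneg (by linarith), line_cut_aux g y x h, cutDist_comm]

/-- finite sums of coordinate distances are cut distances -/
lemma coords_cut {ι : Type*} (J : Finset ι) (g : ι → V → ℝ) :
    ∃ w : Finset V → ℝ, (∀ S, 0 ≤ w S) ∧ ∀ x y, ∑ j ∈ J, |g j x - g j y| = cutDist w x y := by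
  refine ⟨fun S => ∑ j ∈ J, lineWeight (g j) S,
    fun S => Finset.sum_nonneg fun j _ => lineWeight_nonneg _ _, fun x y => ?_⟩
  unfold cutDist
  simp only [Finset.sum_mul]
  rw [Finset.sum_comm]
  refine Finset.sum_congr rfl fun j _ => ?_
  exact line_cut (g j) x y

end Cuts

section RandomCut

variable {V : Type} {J : Type} [Fintype J] [DecidableEq J] [DecidableEq V]

noncomputable def tau (S : J → Finset V) (x : V) (j : J) : ℝ := if x ∈ S j then -1 else 1

omit [Fintype J] [DecidableEq J] in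
lemma prod_tau (S : J → Finset V) (x : V) (E : Finset J) :
    ∏ j ∈ E, tau S x j = 1 ∨ ∏ j ∈ E, tau S x j = -1 := by
  classical
  induction E using Finset.induction_on with
  | empty => simp
  | insert a E ha ih =>
    rw [Finset.prod_insert ha]
    unfold tau at *
    split_ifs <;> rcases ih with h | h <;> simp [h]

lemma random_cut (S : J → Finset V) (r : J → ℝ) (hr0 : ∀ j, 0 ≤ r j) (hr1 : ∀ j, r j ≤ 1) :
    ∃ F : Finset J → V → ℝ, (∀ x, ∑ E, |F E x| ≤ 1) ∧
      ∀ x y, ∑ E, |F E x - F E y| = (1 - ∏ j, (if (x ∈ S j ↔ y ∈ S j) then 1 else r j)) / 2 := by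
  set p : J → ℝ := fun j => (1 - r j) / 2 with hp
  set P : Finset J → ℝ := fun E => (∏ j ∈ E, p j) * ∏ j ∈ univ \ E, (1 - p j) with hP
  have hp0 : ∀ j, 0 ≤ p j := fun j => by simp only [hp]; linarith [hr1 j]
  have hp1 : ∀ j, 0 ≤ 1 - p j := fun j => by simp only [hp]; linarith [hr0 j]
  have hP0 : ∀ E, 0 ≤ P E := fun E =>
    mul_nonneg (Finset.prod_nonneg fun j _ => hp0 j) (Finset.prod_nonneg fun j _ => hp1 j)
  have hP1 : ∑ E, P E = 1 := by
    have := Finset.prod_add p (fun j => 1 - p j) univ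
    rw [Finset.powerset_univ] at this
    rw [hP, ← this]
    simp
  refine ⟨fun E x => P E * ((1 - ∏ j ∈ E, tau S x j) / 2), fun x => ?_, fun x y => ?_⟩
  · calc ∑ E, |P E * ((1 - ∏ j ∈ E, tau S x j) / 2)| ≤ ∑ E, P E := by
          refine Finset.sum_le_sum fun E _ => ?_
          rw [abs_mul, abs_of_nonneg (hP0 E)]
          have : |(1 - ∏ j ∈ E, tau S x j) / 2| ≤ 1 := by
            rcases prod_tau S x E with h | h <;> rw [h] <;> norm_num
          nlinarith [hP0 E]
      _ = 1 := hP1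
  · have h1 : ∀ E : Finset J, |P E * ((1 - ∏ j ∈ E, tau S x j) / 2) -
        P E * ((1 - ∏ j ∈ E, tau S y j) / 2)| =
        (P E - (∏ j ∈ E, p j * (tau S x j * tau S y j)) * ∏ j ∈ univ \ E, (1 - p j)) / 2 := by
      intro E
      rw [← mul_sub, abs_mul, abs_of_nonneg (hP0 E), Finset.prod_mul_distrib,
        Finset.prod_mul_distrib]
      rcases prod_tau S x E with h | h <;> rcases prod_tau S y E with h' | h' <;>
        rw [h, h'] <;> norm_num [hP] <;> ring
    rw [Finset.sum_congr rfl fun E _ => h1 E, ← Finset.sum_div, Finset.sum_sub_distrib, hP1]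
    have := Finset.prod_add (fun j => p j * (tau S x j * tau S y j)) (fun j => 1 - p j) univ
    rw [Finset.powerset_univ] at this
    rw [← this]
    congr 2
    refine Finset.prod_congr rfl fun j _ => ?_
    simp only [tau, hp]
    by_cases h : x ∈ S j <;> by_cases h' : y ∈ S j <;> simp [h, h'] <;> ring

end RandomCut

section Scales

/-- scale -/
noncomputable def sc (b : ℝ) (n : ℕ) : ℝ := b * 2 ^ n

noncomputable def hh (b : ℝ) (n : ℕ) (s : ℝ) : ℝ := min s (sc b (n + 1)) - min s (sc b n)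

noncomputable def ph (b : ℝ) (n : ℕ) (s : ℝ) : ℝ := hh b n s / sc b n - hh b (n + 1) s / sc b (n + 1)

variable {b : ℝ} (hb : 0 < b)
include hb

lemma sc_pos (n : ℕ) : 0 < sc b n := by unfold sc; positivity

omit hb in
lemma sc_succ (n : ℕ) : sc b (n + 1) = 2 * sc b n := by unfold sc; ring

lemma hh_nonneg (n : ℕ) (s : ℝ) : 0 ≤ hh b n s := by
  unfold hh
  have h := sc_pos hb n
  rw [sc_succ]
  have : min s (sc b n) ≤ min s (2 * sc b n) := min_le_min_left _ (by linarith)
  linarith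

lemma hh_le (n : ℕ) (s : ℝ) : hh b n s ≤ sc b n := by
  unfold hh
  have h := sc_pos hb n
  rw [sc_succ]
  rcases le_total s (sc b n) with h1 | h1
  · rw [min_eq_left h1, min_eq_left (by linarith)]; linarith
  · rw [min_eq_right h1]
    have := min_le_right s (2 * sc b n)
    linarith

lemma hh_mono (n : ℕ) {s t : ℝ} (hst : s ≤ t) : hh b n s ≤ hh b n t := by
  unfold hh
  have h := sc_pos hb n
  rw [sc_succ]
  rcases le_total s (sc b n) with h1 | h1 <;> rcases le_total t (sc b n) with h2 | h2 <;>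
    rcases le_total s (2 * sc b n) with h3 | h3 <;> rcases le_total t (2 * sc b n) with h4 | h4 <;>
    simp only [min_eq_left h1, min_eq_right h1, min_eq_left h2, min_eq_right h2,
      min_eq_left h3, min_eq_right h3, min_eq_left h4, min_eq_right h4] <;> linarith

omit hb in
lemma sum_hh (N : ℕ) (s : ℝ) : ∑ n ∈ range N, hh b n s = min s (sc b N) - min s (sc b 0) := by
  unfold hh
  exact Finset.sum_range_sub (fun n => min s (sc b n)) N

omit hb in
lemma sum_hh' (N : ℕ) (s : ℝ) :
    ∑ n ∈ range N, hh b (n + 1) s = min s (sc b (N + 1)) - min s (sc b 1) := by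
  unfold hh
  exact Finset.sum_range_sub (fun n => min s (sc b (n + 1))) N

lemma min_diff_le (c : ℝ) {s t : ℝ} (hst : s ≤ t) : min t c - min s c ≤ t - s ∧ 0 ≤ min t c - min s c := by
  rcases le_total t c with h1 | h1 <;> rcases le_total s c with h2 | h2 <;>
    simp only [min_eq_left h1, min_eq_right h1, min_eq_left h2, min_eq_right h2] <;>
    constructor <;> linarith

lemma sum_abs_hh (N : ℕ) (s t : ℝ) : ∑ n ∈ range N, |hh b n s - hh b n t| ≤ |s - t| := by
  wlog hst : s ≤ t generalizing s t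
  · have := this t s (le_of_not_ge hst)
    rw [abs_sub_comm s t]
    refine le_trans (le_of_eq ?_) this
    exact Finset.sum_congr rfl fun n _ => abs_sub_comm _ _
  · have h1 : ∀ n ∈ range N, |hh b n s - hh b n t| = hh b n t - hh b n s := fun n _ => by
      rw [abs_sub_comm, abs_of_nonneg (by linarith [hh_mono hb n hst])]
    rw [Finset.sum_congr rfl h1, Finset.sum_sub_distrib, sum_hh, sum_hh, abs_sub_comm,
      abs_of_nonneg (by linarith)]
    have h2 := min_diff_le hb (sc b N) hst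
    have h3 := min_diff_le hb (sc b 0) hst
    linarith [h2.1, h3.2]

lemma sum_abs_hh' (N : ℕ) (s t : ℝ) : ∑ n ∈ range N, |hh b (n + 1) s - hh b (n + 1) t| ≤ |s - t| := by
  wlog hst : s ≤ t generalizing s t
  · have := this t s (le_of_not_ge hst)
    rw [abs_sub_comm s t]
    refine le_trans (le_of_eq ?_) this
    exact Finset.sum_congr rfl fun n _ => abs_sub_comm _ _
  · have h1 : ∀ n ∈ range N, |hh b (n + 1) s - hh b (n + 1) t| = hh b (n + 1) t - hh b (n + 1) s :=
      fun n _ => by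
      rw [abs_sub_comm, abs_of_nonneg (by linarith [hh_mono hb (n + 1) hst])]
    rw [Finset.sum_congr rfl h1, Finset.sum_sub_distrib, sum_hh', sum_hh', abs_sub_comm,
      abs_of_nonneg (by linarith)]
    have h2 := min_diff_le hb (sc b (N + 1)) hst
    have h3 := min_diff_le hb (sc b 1) hst
    linarith [h2.1, h3.2]

lemma hh_eq_zero (n : ℕ) {s : ℝ} (hs : s ≤ sc b n) : hh b n s = 0 := by
  unfold hh
  have h := sc_pos hb n
  rw [sc_succ, min_eq_left hs, min_eq_left (by linarith), sub_self]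

lemma hh_eq_full (n : ℕ) {s : ℝ} (hs : 2 * sc b n ≤ s) : hh b n s = sc b n := by
  unfold hh
  have h := sc_pos hb n
  rw [sc_succ, min_eq_right hs, min_eq_right (by linarith)]; ring

lemma ph_nonneg (n : ℕ) (s : ℝ) : 0 ≤ ph b n s := by
  unfold ph
  have h := sc_pos hb n
  have h' := sc_pos hb (n + 1)
  rcases le_total s (sc b (n + 1)) with h1 | h1
  · rw [hh_eq_zero hb _ h1, zero_div, sub_zero]
    exact div_nonneg (hh_nonneg hb n s) h.le
  · rw [hh_eq_full hb n (by rw [← sc_succ]; exact h1), div_self h.ne']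
    have := hh_le hb (n + 1) s
    have : hh b (n + 1) s / sc b (n + 1) ≤ 1 := by rw [div_le_one h']; exact this
    linarith

lemma ph_supp (n : ℕ) {s : ℝ} (hs : ph b n s ≠ 0) : sc b n ≤ s ∧ s ≤ 4 * sc b n := by
  have h := sc_pos hb n
  constructor
  · by_contra hc
    push Not at hc
    apply hs
    unfold ph
    rw [hh_eq_zero hb _ hc.le, hh_eq_zero hb _ (by rw [sc_succ]; linarith)]; simp
  · by_contra hc
    push Not at hc
    apply hs
    unfold ph
    rw [hh_eq_full hb n (by linarith), hh_eq_full hb (n + 1) (by rw [sc_succ]; linarith),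
      div_self h.ne', div_self (sc_pos hb (n + 1)).ne', sub_self]

lemma sum_ph (N : ℕ) (s : ℝ) : ∑ n ∈ range N, ph b n s = hh b 0 s / sc b 0 - hh b N s / sc b N := by
  unfold ph
  exact Finset.sum_range_sub' (fun n => hh b n s / sc b n) N

lemma sum_ph_le (N : ℕ) (s : ℝ) : ∑ n ∈ range N, ph b n s ≤ 1 := by
  rw [sum_ph hb]
  have h1 : hh b 0 s / sc b 0 ≤ 1 := by rw [div_le_one (sc_pos hb 0)]; exact hh_le hb 0 s
  have h2 : 0 ≤ hh b N s / sc b N := div_nonneg (hh_nonneg hb N s) (sc_pos hb N).le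
  linarith

lemma sum_ph_eq (N : ℕ) {s : ℝ} (h1 : 2 * b ≤ s) (h2 : s ≤ sc b N) : ∑ n ∈ range N, ph b n s = 1 := by
  rw [sum_ph hb, hh_eq_zero hb N h2, hh_eq_full hb 0 (by simpa [sc] using h1),
    div_self (sc_pos hb 0).ne']; simp

lemma sum_sc_ph (N : ℕ) (s t : ℝ) :
    ∑ n ∈ range N, sc b n * |ph b n s - ph b n t| ≤ 3 / 2 * |s - t| := by
  have h1 : ∀ n ∈ range N, sc b n * |ph b n s - ph b n t| ≤
      |hh b n s - hh b n t| + 1 / 2 * |hh b (n + 1) s - hh b (n + 1) t| := by
    intro n _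
    have h := sc_pos hb n
    have h3 : sc b n * (ph b n s - ph b n t) =
        (hh b n s - hh b n t) - 1 / 2 * (hh b (n + 1) s - hh b (n + 1) t) := by
      unfold ph
      rw [sc_succ]
      field_simp
      ring
    have h5 : sc b n * |ph b n s - ph b n t| = |sc b n * (ph b n s - ph b n t)| := by
      rw [abs_mul, abs_of_pos h]
    rw [h5, h3]
    refine (abs_sub _ _).trans ?_
    rw [abs_mul, abs_of_pos (by norm_num : (0:ℝ) < 1 / 2)]
  refine (Finset.sum_le_sum h1).trans ?_
  rw [Finset.sum_add_distrib, ← Finset.mul_sum]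
  have h4 := sum_abs_hh hb N s t
  have h5 := sum_abs_hh' hb N s t
  linarith

end Scales

section Glue

variable {V : Type} {ι : Type} [Fintype ι]

lemma glue_upper {b : ℝ} (hb : 0 < b) (N : ℕ) (ρ : V → ℝ) (F : ℕ → ι → V → ℝ)
    (hF : ∀ n x, ∑ e, |F n e x| ≤ sc b n) (x y : V) (D : ℝ) (hD : 0 ≤ D)
    (h : ∀ n, sc b n ≤ ρ y → ∑ e, |F n e x - F n e y| ≤ D) :
    ∑ n ∈ range N, ∑ e, |ph b n (ρ x) * F n e x - ph b n (ρ y) * F n e y| ≤
      3 / 2 * |ρ x - ρ y| + D := by
  have h1 : ∀ n ∈ range N, ∑ e, |ph b n (ρ x) * F n e x - ph b n (ρ y) * F n e y| ≤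
      sc b n * |ph b n (ρ x) - ph b n (ρ y)| + ph b n (ρ y) * D := by
    intro n _
    have h2 : ∀ e, |ph b n (ρ x) * F n e x - ph b n (ρ y) * F n e y| ≤
        |ph b n (ρ x) - ph b n (ρ y)| * |F n e x| + ph b n (ρ y) * |F n e x - F n e y| := by
      intro e
      have : ph b n (ρ x) * F n e x - ph b n (ρ y) * F n e y =
        (ph b n (ρ x) - ph b n (ρ y)) * F n e x + ph b n (ρ y) * (F n e x - F n e y) := by ring
      rw [this]
      refine (abs_add_le _ _).trans ?_
      rw [abs_mul, abs_mul, abs_of_nonneg (ph_nonneg hb n (ρ y))]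
    refine (Finset.sum_le_sum fun e _ => h2 e).trans ?_
    rw [Finset.sum_add_distrib, ← Finset.mul_sum, ← Finset.mul_sum]
    refine add_le_add ?_ ?_
    · rw [mul_comm]
      exact mul_le_mul_of_nonneg_right (hF n x) (abs_nonneg _)
    · by_cases hz : ph b n (ρ y) = 0
      · rw [hz]; simp
      · exact mul_le_mul_of_nonneg_left (h n (ph_supp hb n hz).1) (ph_nonneg hb n _)
  refine (Finset.sum_le_sum h1).trans ?_
  rw [Finset.sum_add_distrib, ← Finset.sum_mul]
  refine add_le_add (sum_sc_ph hb N _ _) ?_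
  have := sum_ph_le hb N (ρ y)
  nlinarith

lemma glue_lower {b : ℝ} (hb : 0 < b) (N : ℕ) (ρ : V → ℝ) (F : ℕ → ι → V → ℝ)
    (hF : ∀ n x, ∑ e, |F n e x| ≤ sc b n) (x y : V) (D : ℝ) 
    (hx1 : 2 * b ≤ ρ x) (hx2 : ρ x ≤ sc b N)
    (h : ∀ n, ρ x ≤ 4 * sc b n → D ≤ ∑ e, |F n e x - F n e y|) :
    D - 3 / 2 * |ρ x - ρ y| ≤
    ∑ n ∈ range N, ∑ e, |ph b n (ρ x) * F n e x - ph b n (ρ y) * F n e y| := by
  have h1 : ∀ n ∈ range N, ph b n (ρ x) * D - sc b n * |ph b n (ρ x) - ph b n (ρ y)| ≤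
      ∑ e, |ph b n (ρ x) * F n e x - ph b n (ρ y) * F n e y| := by
    intro n _
    have h2 : ∀ e, ph b n (ρ x) * |F n e x - F n e y| -
        |ph b n (ρ x) - ph b n (ρ y)| * |F n e y| ≤
        |ph b n (ρ x) * F n e x - ph b n (ρ y) * F n e y| := by
      intro e
      have : ph b n (ρ x) * F n e x - ph b n (ρ y) * F n e y =
        ph b n (ρ x) * (F n e x - F n e y) - (-(ph b n (ρ x) - ph b n (ρ y)) * F n e y) := by ring
      rw [this]
      refine le_trans ?_ (abs_sub_abs_le_abs_sub _ _)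
      rw [abs_mul, abs_mul, abs_neg, abs_of_nonneg (ph_nonneg hb n (ρ x))]
    refine le_trans ?_ (Finset.sum_le_sum fun e _ => h2 e)
    rw [Finset.sum_sub_distrib, ← Finset.mul_sum, ← Finset.mul_sum]
    refine sub_le_sub ?_ ?_
    · by_cases hz : ph b n (ρ x) = 0
      · rw [hz]; simp
      · exact mul_le_mul_of_nonneg_left (h n (ph_supp hb n hz).2) (ph_nonneg hb n _)
    · rw [mul_comm]
      exact mul_le_mul_of_nonneg_right (hF n y) (abs_nonneg _)
  refine le_trans ?_ (Finset.sum_le_sum h1)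
  rw [Finset.sum_sub_distrib, ← Finset.sum_mul, sum_ph_eq hb N hx1 hx2]
  have := sum_sc_ph hb N (ρ x) (ρ y)
  linarith

end Glue

section Graph

variable {V : Type}

variable {G : SimpleGraph V} {ℓ : Sym2 V → ℝ}

lemma len_nonneg (hℓ : ∀ e ∈ G.edgeSet, 0 < ℓ e) {x y : V} (p : G.Walk x y) :
    0 ≤ (p.edges.map ℓ).sum := by
  apply List.sum_nonneg
  intro t ht
  rw [List.mem_map] at ht
  obtain ⟨e, he, rfl⟩ := ht
  exact (hℓ e (p.edges_subset_edgeSet he)).le

lemma pathDist_le (hℓ : ∀ e ∈ G.edgeSet, 0 < ℓ e) {x y : V} (p : G.Walk x y) :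
    pathDist G ℓ x y ≤ (p.edges.map ℓ).sum :=
  ciInf_le ⟨0, by rintro _ ⟨q, rfl⟩; exact len_nonneg hℓ q⟩ p

lemma le_pathDist {x y : V} (h : G.Reachable x y) {c : ℝ}
    (hc : ∀ p : G.Walk x y, c ≤ (p.edges.map ℓ).sum) : c ≤ pathDist G ℓ x y := by
  haveI : Nonempty (G.Walk x y) := h
  exact le_ciInf hc

lemma pathDist_nonneg (hℓ : ∀ e ∈ G.edgeSet, 0 < ℓ e) (x y : V) : 0 ≤ pathDist G ℓ x y :=
  Real.iInf_nonneg fun p => len_nonneg hℓ p

lemma pathDist_self (hℓ : ∀ e ∈ G.edgeSet, 0 < ℓ e) (x : V) : pathDist G ℓ x x = 0 := by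
  apply le_antisymm _ (pathDist_nonneg hℓ x x)
  simpa using pathDist_le hℓ (SimpleGraph.Walk.nil : G.Walk x x)

lemma pathDist_comm (hℓ : ∀ e ∈ G.edgeSet, 0 < ℓ e) {x y : V} (h : G.Reachable x y) :
    pathDist G ℓ x y = pathDist G ℓ y x := by
  apply le_antisymm
  · refine le_pathDist h.symm fun p => ?_
    have := pathDist_le hℓ p.reverse
    simpa [SimpleGraph.Walk.edges_reverse, List.sum_reverse] using this
  · refine le_pathDist h fun p => ?_
    have := pathDist_le hℓ p.reverse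
    simpa [SimpleGraph.Walk.edges_reverse, List.sum_reverse] using this

lemma pathDist_triangle (hℓ : ∀ e ∈ G.edgeSet, 0 < ℓ e) {x y z : V} (h1 : G.Reachable x y)
    (h2 : G.Reachable y z) : pathDist G ℓ x z ≤ pathDist G ℓ x y + pathDist G ℓ y z := by
  have key : ∀ p : G.Walk x y, ∀ q : G.Walk y z,
      pathDist G ℓ x z ≤ (p.edges.map ℓ).sum + (q.edges.map ℓ).sum := by
    intro p q
    have := pathDist_le hℓ (p.append q)
    simpa [SimpleGraph.Walk.edges_append] using this
  have h3 : ∀ p : G.Walk x y, pathDist G ℓ x z - (p.edges.map ℓ).sum ≤ pathDist G ℓ y z := by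
    intro p
    refine le_pathDist h2 fun q => ?_
    linarith [key p q]
  have h4 : pathDist G ℓ x z - pathDist G ℓ y z ≤ pathDist G ℓ x y := by
    refine le_pathDist h1 fun p => ?_
    linarith [h3 p]
  linarith

/-- positivity of distances between distinct vertices -/
lemma pathDist_pos [Finite V] (hℓ : ∀ e ∈ G.edgeSet, 0 < ℓ e) {x y : V} (h : G.Reachable x y)
    (hne : x ≠ y) : 0 < pathDist G ℓ x y := by
  obtain ⟨m, hm0, hm⟩ : ∃ m : ℝ, 0 < m ∧ ∀ e ∈ G.edgeSet, m ≤ ℓ e := by
    have hfin : (G.edgeSet).Finite := Set.toFinite _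
    rcases G.edgeSet.eq_empty_or_nonempty with he | he
    · exact ⟨1, one_pos, by simp [he]⟩
    · obtain ⟨e, he, hmin⟩ := Set.exists_min_image G.edgeSet ℓ hfin he
      exact ⟨ℓ e, hℓ e he, hmin⟩
  refine lt_of_lt_of_le hm0 (le_pathDist h fun p => ?_)
  cases p with
  | nil => exact absurd rfl hne
  | cons hadj q =>
    rw [SimpleGraph.Walk.edges_cons, List.map_cons, List.sum_cons]
    have h1 := hm _ ((SimpleGraph.mem_edgeSet G).2 hadj)
    have h2 := len_nonneg hℓ q
    linarith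

/-- Remove all edges meeting the vertex set `A`. -/
def del (G : SimpleGraph V) (A : Finset V) : SimpleGraph V where
  Adj x y := G.Adj x y ∧ x ∉ A ∧ y ∉ A
  symm := ⟨fun _ _ h => ⟨h.1.symm, h.2.2, h.2.1⟩⟩
  loopless := ⟨fun _ h => G.loopless.irrefl _ h.1⟩

lemma del_le (G : SimpleGraph V) (A : Finset V) : del G A ≤ G := fun _ _ h => h.1

lemma del_edgeSet (A : Finset V) (hℓ : ∀ e ∈ G.edgeSet, 0 < ℓ e) :
    ∀ e ∈ (del G A).edgeSet, 0 < ℓ e := fun e he =>
  hℓ e (SimpleGraph.edgeSet_subset_edgeSet.2 (del_le G A) he)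

lemma del_insert [DecidableEq V] (G : SimpleGraph V) (A : Finset V) (a : V) :
    del G (insert a A) = del (del G A) {a} := by
  ext x y
  simp only [del, mem_insert, not_or, mem_singleton]
  tauto

lemma walk_dichotomy [DecidableEq V] (hℓ : ∀ e ∈ G.edgeSet, 0 < ℓ e) (a : V) {x y : V}
    (p : G.Walk x y) :
    (∃ q : (del G {a}).Walk x y, (q.edges.map ℓ).sum = (p.edges.map ℓ).sum) ∨
    (G.Reachable x a ∧ G.Reachable a y ∧
      pathDist G ℓ x a + pathDist G ℓ a y ≤ (p.edges.map ℓ).sum) := by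
  by_cases ha : a ∈ p.support
  · right
    refine ⟨⟨p.takeUntil a ha⟩, ⟨p.dropUntil a ha⟩, ?_⟩
    have h1 := pathDist_le hℓ (p.takeUntil a ha)
    have h2 := pathDist_le hℓ (p.dropUntil a ha)
    have h3 : (p.edges.map ℓ).sum =
        ((p.takeUntil a ha).edges.map ℓ).sum + ((p.dropUntil a ha).edges.map ℓ).sum := by
      conv_lhs => rw [← p.take_spec ha]
      rw [SimpleGraph.Walk.edges_append, List.map_append, List.sum_append]
    linarith
  · left
    have hp : ∀ e ∈ p.edges, e ∈ (del G {a}).edgeSet := by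
      intro e he
      induction e with
      | _ u v =>
        rw [SimpleGraph.mem_edgeSet]
        refine ⟨p.adj_of_mem_edges he, ?_, ?_⟩
        · rw [mem_singleton]; rintro rfl
          exact ha (p.fst_mem_support_of_mem_edges he)
        · rw [mem_singleton]; rintro rfl
          exact ha (p.snd_mem_support_of_mem_edges he)
    exact ⟨p.transfer _ hp, by rw [SimpleGraph.Walk.edges_transfer]⟩

lemma pathDist_mono {H : SimpleGraph V} (hH : H ≤ G) (hℓ : ∀ e ∈ G.edgeSet, 0 < ℓ e) {x y : V}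
    (h : H.Reachable x y) : pathDist G ℓ x y ≤ pathDist H ℓ x y := by
  refine le_pathDist h fun p => ?_
  have := pathDist_le hℓ (p.mapLe hH)
  rwa [SimpleGraph.Walk.edges_mapLe_eq_edges] at this

end Graph

end Vale.Agent.P235
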