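import Mathlib
import Vale.Agent.P235.Defs

/-! Graph classes for P235. -/

namespace Vale.Agent.P235

/-- `G` is the 1-sum, at the vertex `v`, of its induced subgraphs on `S` and `T`. -/
structure IsOneSum {V : Type} (G : SimpleGraph V) (S T : Set V) (v : V) : Prop where
  union : S ∪ T = Set.univ
  inter : S ∩ T = {v}
  edge : ∀ x y, G.Adj x y → (x ∈ S ∧ y ∈ S) ∨ (x ∈ T ∧ y ∈ T)

/-- Finite connected graphs of 2-treedepth at most `k + 1`: single vertices have level `0`; if all
components of `G - a` have level `k`, then `G` has level `k + 1`; a 1-sum of two graphs of level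
`k` has level `k`. -/
inductive TwoTreedepthLE : ℕ → (V : Type) → SimpleGraph V → Prop
  | point (k : ℕ) (V : Type) [Nonempty V] [Subsingleton V] (G : SimpleGraph V) :
      TwoTreedepthLE k V G
  | apex (k : ℕ) (V : Type) [Finite V] (G : SimpleGraph V) (hG : G.Connected) (a : V)
      (h : ∀ c : (G.induce ({a}ᶜ : Set V)).ConnectedComponent,
        TwoTreedepthLE k c.supp ((G.induce ({a}ᶜ : Set V)).induce c.supp)) :
      TwoTreedepthLE (k + 1) V G
  | oneSum (k : ℕ) (V : Type) [Finite V] (G : SimpleGraph V) (hG : G.Connected)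
      (S T : Set V) (v : V) (h : IsOneSum G S T v)
      (hS : TwoTreedepthLE k S (G.induce S)) (hT : TwoTreedepthLE k T (G.induce T)) :
      TwoTreedepthLE k V G

end Vale.Agent.P235
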