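import Mathlib
import Vale.Agent.P235.Basic

set_option linter.unusedSectionVars false

open Finset

namespace Vale.Agent.P235

variable {V : Type} [Fintype V] [DecidableEq V]

/-- componentwise embedding into the cut cone with distortion `C` -/
def CutEmb (G : SimpleGraph V) (ℓ : Sym2 V → ℝ) (C : ℝ) : Prop :=
  ∃ w : Finset V → ℝ, (∀ S, 0 ≤ w S) ∧ ∀ x y, G.Reachable x y →
    pathDist G ℓ x y ≤ cutDist w x y ∧ cutDist w x y ≤ C * pathDist G ℓ x y

open Classical in
/-- bounded maps realizing a saturated version of a cut metric at a fixed scale `T` -/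
lemma trunc (H : SimpleGraph V) (w : Finset V → ℝ) (hw : ∀ S, 0 ≤ w S) {T : ℝ} (hT : 0 < T) :
    ∃ F : Finset (Finset V ⊕ V) → V → ℝ, (∀ x, ∑ E, |F E x| ≤ T) ∧
      (∀ x y, H.Reachable x y → ∑ E, |F E x - F E y| = T * (1 - Real.exp (-(cutDist w x y / T))) / 2) ∧
      (∀ x y, ¬ H.Reachable x y → ∑ E, |F E x - F E y| = T / 2) := by
  obtain ⟨F, hF1, hF2⟩ := random_cut (V := V) (J := Finset V ⊕ V)
    (Sum.elim (fun S => S) (fun v => univ.filter fun z => H.Reachable v z))
    (Sum.elim (fun S => Real.exp (-(w S / T))) (fun _ => 0))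
    (by rintro (S | v)
        · exact (Real.exp_pos _).le
        · exact le_rfl)
    (by rintro (S | v)
        · simp only [Sum.elim_inl]
          rw [Real.exp_le_one_iff]
          have := div_nonneg (hw S) hT.le
          linarith
        · simp)
  have hprod : ∀ x y, (∏ j : Finset V ⊕ V,
      (if (x ∈ (Sum.elim (fun S => S) (fun v => univ.filter fun z => H.Reachable v z) j : Finset V) ↔
        y ∈ (Sum.elim (fun S => S) (fun v => univ.filter fun z => H.Reachable v z) j : Finset V))
        then (1:ℝ) else (Sum.elim (fun S => Real.exp (-(w S / T))) (fun _ => 0) j : ℝ))) =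
      Real.exp (-(cutDist w x y / T)) * (if H.Reachable x y then 1 else 0) := by
    intro x y
    rw [Fintype.prod_sum_type]
    congr 1
    · unfold cutDist
      rw [Finset.sum_div, ← Finset.sum_neg_distrib, Real.exp_sum]
      refine Finset.prod_congr rfl fun S _ => ?_
      change (if (x ∈ S ↔ y ∈ S) then (1:ℝ) else Real.exp (-(w S / T))) = _
      unfold sep
      by_cases h : (x ∈ S ↔ y ∈ S)
      · rw [if_pos h, if_pos h]; simp
      · rw [if_neg h, if_neg h]; simp
    · simp only [Sum.elim_inr, mem_filter, mem_univ, true_and]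
      split_ifs with h
      · refine Finset.prod_eq_one fun v _ => ?_
        rw [if_pos]
        exact ⟨fun h1 => h1.trans h, fun h1 => h1.trans h.symm⟩
      · apply Finset.prod_eq_zero (mem_univ x)
        rw [if_neg]
        intro h1
        exact h (h1.1 (SimpleGraph.Reachable.refl x))
  refine ⟨fun E x => T * F E x, fun x => ?_, fun x y h => ?_, fun x y h => ?_⟩
  · have : ∀ E, |T * F E x| = T * |F E x| := fun E => by rw [abs_mul, abs_of_pos hT]
    simp only [this, ← Finset.mul_sum]
    nlinarith [hF1 x]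
  · have : ∀ E, |T * F E x - T * F E y| = T * |F E x - F E y| := fun E => by
      rw [← mul_sub, abs_mul, abs_of_pos hT]
    simp only [this, ← Finset.mul_sum]
    rw [hF2 x y, hprod x y, if_pos h]; ring
  · have : ∀ E, |T * F E x - T * F E y| = T * |F E x - F E y| := fun E => by
      rw [← mul_sub, abs_mul, abs_of_pos hT]
    simp only [this, ← Finset.mul_sum]
    rw [hF2 x y, hprod x y, if_neg h]; ring

lemma one_sub_exp_le {T D : ℝ} (hT : 0 < T) : T * (1 - Real.exp (-(D / T))) ≤ D := by
  have h := Real.add_one_le_exp (-(D / T))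
  have h2 : T * (1 - Real.exp (-(D / T))) ≤ T * (D / T) :=
    mul_le_mul_of_nonneg_left (by linarith) hT.le
  rwa [mul_div_cancel₀ _ hT.ne'] at h2

lemma one_sub_exp_le' {T D : ℝ} (hT : 0 < T) : T * (1 - Real.exp (-(D / T))) ≤ T := by
  have := Real.exp_pos (-(D / T))
  nlinarith

lemma le_one_sub_exp {T D m : ℝ} (hT : 0 < T) (hm : 0 ≤ m) (hD : m ≤ D) (hmT : m ≤ T) :
    m / 2 ≤ T * (1 - Real.exp (-(D / T))) := by
  -- `exp (D/T) ≥ 1 + D/T`
  have h0 : Real.exp (-(D / T)) ≤ Real.exp (-(m / T)) := by
    rw [Real.exp_le_exp]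
    have : m / T ≤ D / T := div_le_div_of_nonneg_right hD hT.le
    linarith
  have h1 := Real.add_one_le_exp (m / T)
  have h2 : Real.exp (-(m / T)) ≤ 1 / (1 + m / T) := by
    rw [Real.exp_neg, ← one_div]
    apply one_div_le_one_div_of_le
    · have := div_nonneg hm hT.le; linarith
    · linarith
  have h3 : 1 / (1 + m / T) = T / (T + m) := by
    field_simp
  have h4 : T * (1 - Real.exp (-(D / T))) ≥ T * (1 - T / (T + m)) := by
    apply mul_le_mul_of_nonneg_left _ hT.le
    rw [← h3]; linarith
  have h5 : T * (1 - T / (T + m)) = T * m / (T + m) := by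
    field_simp
    ring
  rw [h5] at h4
  refine le_trans ?_ h4
  rw [div_le_div_iff₀ (by norm_num) (by linarith)]
  nlinarith

open Classical in
/-- The one-apex step. -/
theorem step (G : SimpleGraph V) (ℓ : Sym2 V → ℝ) (hℓ : ∀ e ∈ G.edgeSet, 0 < ℓ e) (a : V)
    {C : ℝ} (hC : 1 ≤ C) (h : CutEmb (del G {a}) ℓ C) : CutEmb G ℓ (112 * C) := by
  obtain ⟨w, hw, hwd⟩ := h
  set H := del G {a} with hH
  have hℓH : ∀ e ∈ H.edgeSet, 0 < ℓ e := del_edgeSet {a} hℓ
  set ρ : V → ℝ := fun x => pathDist G ℓ x a with hρ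
  have hρ0 : ∀ x, 0 ≤ ρ x := fun x => pathDist_nonneg hℓ x a
  -- choose the base scale
  obtain ⟨b, hb, hb2⟩ : ∃ b : ℝ, 0 < b ∧ ∀ x, G.Reachable x a → x ≠ a → 2 * b ≤ ρ x := by
    let s : Finset V := univ.filter fun x => G.Reachable x a ∧ x ≠ a
    rcases s.eq_empty_or_nonempty with hs | hs
    · refine ⟨1, one_pos, fun x h1 h2 => ?_⟩
      have : x ∈ s := by simp [s, h1, h2]
      rw [hs] at this; simp at this
    · obtain ⟨x0, hx0, hmin⟩ := Finset.exists_min_image s ρ hs
      have hx0' : G.Reachable x0 a ∧ x0 ≠ a := by simpa [s] using hx0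
      refine ⟨ρ x0 / 2, ?_, fun x h1 h2 => ?_⟩
      · have := pathDist_pos hℓ hx0'.1 hx0'.2
        simp only [hρ]; linarith
      · have := hmin x (by simp [s, h1, h2])
        linarith
  obtain ⟨N, hN⟩ : ∃ N : ℕ, ∀ x, ρ x ≤ sc b N := by
    have h1 : ∀ x, ∃ n : ℕ, ρ x ≤ sc b n := by
      intro x
      obtain ⟨n, hn⟩ := pow_unbounded_of_one_lt (ρ x / b) (one_lt_two)
      refine ⟨n, ?_⟩
      unfold sc
      rw [div_lt_iff₀ hb] at hn
      linarith
    choose n hn using h1
    refine ⟨univ.sup n, fun x => (hn x).trans ?_⟩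
    unfold sc
    apply mul_le_mul_of_nonneg_left _ hb.le
    exact pow_le_pow_right₀ (by norm_num) (Finset.le_sup (mem_univ x))
  choose F hF1 hF2 hF3 using fun n : ℕ => trunc H w hw (sc_pos hb n)
  -- distances facts
  have hdist : ∀ x y, G.Reachable x a → G.Reachable y a →
      pathDist G ℓ x y ≤ ρ x + ρ y ∧ |ρ x - ρ y| ≤ pathDist G ℓ x y := by
    intro x y hx hy
    have h1 := pathDist_triangle hℓ hx hy.symm
    have h2 := pathDist_triangle hℓ (hx.trans hy.symm) hy
    have h3 := pathDist_triangle hℓ (hy.trans hx.symm) hx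
    rw [pathDist_comm hℓ (hy.trans hx.symm)] at h3
    rw [pathDist_comm hℓ hy.symm] at h1
    refine ⟨h1, ?_⟩
    rw [abs_le]
    constructor
    · simp only [hρ]; linarith
    · simp only [hρ]; linarith
  have hmin : ∀ x y, G.Reachable x y → H.Reachable x y →
      pathDist H ℓ x y ≤ pathDist G ℓ x y ∨ (G.Reachable x a ∧ ρ x + ρ y ≤ pathDist G ℓ x y) := by
    intro x y hxy hHxy
    by_contra hc
    push Not at hc
    obtain ⟨h1, h2⟩ := hc
    by_cases hxa : G.Reachable x a
    · have h2 := h2 hxa
      have : min (pathDist H ℓ x y) (ρ x + ρ y) ≤ pathDist G ℓ x y := by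
        refine le_pathDist hxy fun p => ?_
        rcases walk_dichotomy hℓ a p with ⟨q, hq⟩ | ⟨_, h4, h5⟩
        · rw [← hq]
          exact (min_le_left _ _).trans (pathDist_le hℓH q)
        · refine (min_le_right _ _).trans ?_
          rw [pathDist_comm hℓ h4] at h5
          exact h5
      rcases min_le_iff.1 this with h | h <;> linarith
    · have : pathDist H ℓ x y ≤ pathDist G ℓ x y := by
        refine le_pathDist hxy fun p => ?_
        rcases walk_dichotomy hℓ a p with ⟨q, hq⟩ | ⟨h3, _, _⟩
        · rw [← hq]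
          exact pathDist_le hℓH q
        · exact absurd h3 hxa
      linarith
  have hmin' : ∀ x y, G.Reachable x y → ¬ H.Reachable x y →
      G.Reachable x a ∧ ρ x + ρ y ≤ pathDist G ℓ x y := by
    intro x y hxy hHxy
    have hxa : G.Reachable x a := by
      obtain ⟨p⟩ := hxy
      rcases walk_dichotomy hℓ a p with ⟨q, _⟩ | ⟨h3, _, _⟩
      · exact absurd ⟨q⟩ hHxy
      · exact h3
    refine ⟨hxa, le_pathDist hxy fun p => ?_⟩
    rcases walk_dichotomy hℓ a p with ⟨q, _⟩ | ⟨_, h4, h5⟩
    · exact absurd ⟨q⟩ hHxy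
    · rw [pathDist_comm hℓ h4] at h5
      exact h5
  have hHle : H ≤ G := del_le G {a}
  -- upper and lower scale estimates
  have hup : ∀ x y, G.Reachable x a → G.Reachable y a → ∀ n, sc b n ≤ ρ y →
      ∑ E, |F n E x - F n E y| ≤ C / 2 * pathDist G ℓ x y := by
    intro x y hx hy n hn
    have hd0 := pathDist_nonneg hℓ x y
    have hCd : pathDist G ℓ x y ≤ C * pathDist G ℓ x y := by nlinarith
    have hxy : G.Reachable x y := hx.trans hy.symm
    by_cases hr : H.Reachable x y
    · rw [hF2 n x y hr]
      rcases hmin x y hxy hr with h1 | ⟨_, h1⟩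
      · have h2 := one_sub_exp_le (D := cutDist w x y) (sc_pos hb n)
        have h3 := (hwd x y hr).2
        have h4 : C * pathDist H ℓ x y ≤ C * pathDist G ℓ x y :=
          mul_le_mul_of_nonneg_left h1 (by linarith)
        linarith
      · have h2 := one_sub_exp_le' (D := cutDist w x y) (sc_pos hb n)
        have := hρ0 x
        linarith
    · rw [hF3 n x y hr]
      have h1 := (hmin' x y hxy hr).2
      have := hρ0 x
      linarith
  have hlow : ∀ x y, G.Reachable x a → G.Reachable y a → ρ y ≤ ρ x → ∀ n, ρ x ≤ 4 * sc b n →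
      pathDist G ℓ x y / 32 ≤ ∑ E, |F n E x - F n E y| := by
    intro x y hx hy hyx n hn
    have hd0 := pathDist_nonneg hℓ x y
    have h1 := (hdist x y hx hy).1
    by_cases hr : H.Reachable x y
    · rw [hF2 n x y hr]
      have h2 := (hwd x y hr).1
      have h3 := pathDist_mono hHle hℓ hr
      have h4 := le_one_sub_exp (T := sc b n) (D := cutDist w x y) (m := pathDist G ℓ x y / 8)
        (sc_pos hb n) (by linarith) (by linarith) (by linarith)
      linarith
    · rw [hF3 n x y hr]
      linarith
  -- the coordinates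
  let g : ((Fin N × Finset (Finset V ⊕ V)) ⊕ Unit ⊕ Finset V) → V → ℝ :=
    Sum.elim (fun nE x => if G.Reachable x a then 32 * (ph b nE.1 (ρ x) * F nE.1 nE.2 x) else 0)
      (Sum.elim (fun _ x => if G.Reachable x a then 48 * ρ x else 0)
        (fun S x => if G.Reachable x a then 0 else (if x ∈ S then w S else 0)))
  obtain ⟨w', hw', hww⟩ := coords_cut (V := V) univ g
  refine ⟨w', hw', fun x y hxy => ?_⟩
  rw [← hww x y, Fintype.sum_sum_type, Fintype.sum_sum_type]
  simp only [g, Sum.elim_inl, Sum.elim_inr, Finset.univ_unique, Finset.sum_singleton]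
  by_cases hx : G.Reachable x a
  · have hy : G.Reachable y a := hxy.symm.trans hx
    simp only [hx, hy, if_true, sub_self, abs_zero, Finset.sum_const_zero, add_zero]
    have e1 : ∑ nE : Fin N × Finset (Finset V ⊕ V),
        |32 * (ph b nE.1 (ρ x) * F nE.1 nE.2 x) - 32 * (ph b nE.1 (ρ y) * F nE.1 nE.2 y)| =
        32 * ∑ n ∈ range N, ∑ E, |ph b n (ρ x) * F n E x - ph b n (ρ y) * F n E y| := by
      rw [Fintype.sum_prod_type, Finset.mul_sum]
      rw [← Fin.sum_univ_eq_sum_range
        (fun n => 32 * ∑ E, |ph b n (ρ x) * F n E x - ph b n (ρ y) * F n E y|) N]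
      refine Finset.sum_congr rfl fun n _ => ?_
      rw [Finset.mul_sum]
      refine Finset.sum_congr rfl fun E _ => ?_
      rw [← mul_sub, abs_mul, abs_of_pos (by norm_num : (0:ℝ) < 32)]
    have e2 : |48 * ρ x - 48 * ρ y| = 48 * |ρ x - ρ y| := by
      rw [← mul_sub, abs_mul, abs_of_pos (by norm_num : (0:ℝ) < 48)]
    rw [e1, e2]
    have hd0 := pathDist_nonneg hℓ x y
    obtain ⟨hd1, hd2⟩ := hdist x y hx hy
    constructor
    · -- lower bound
      rcases le_total (ρ y) (ρ x) with hle | hle
      · by_cases hxa : x = a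
        · have hρx : ρ x = 0 := by simp only [hρ, hxa]; exact pathDist_self hℓ a
          have : pathDist G ℓ x y ≤ 0 := by linarith
          have h0 : 0 ≤ 32 * ∑ n ∈ range N, ∑ E, |ph b n (ρ x) * F n E x - ph b n (ρ y) * F n E y| := by
            positivity
          have := abs_nonneg (ρ x - ρ y)
          linarith
        · have := glue_lower hb N ρ F (fun n x => hF1 n x) x y (pathDist G ℓ x y / 32)
            (hb2 x hx hxa) (hN x) (hlow x y hx hy hle)
          linarith
      · by_cases hya : y = a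
        · have hρy : ρ y = 0 := by simp only [hρ, hya]; exact pathDist_self hℓ a
          have : pathDist G ℓ x y ≤ 0 := by linarith
          have h0 : 0 ≤ 32 * ∑ n ∈ range N, ∑ E, |ph b n (ρ x) * F n E x - ph b n (ρ y) * F n E y| := by
            positivity
          have := abs_nonneg (ρ x - ρ y)
          linarith
        · have h1 := glue_lower hb N ρ F (fun n x => hF1 n x) y x (pathDist G ℓ y x / 32)
            (hb2 y hy hya) (hN y) (hlow y x hy hx hle)
          rw [pathDist_comm hℓ hxy.symm, abs_sub_comm] at h1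
          have h2 : ∑ n ∈ range N, ∑ E, |ph b n (ρ y) * F n E y - ph b n (ρ x) * F n E x| =
              ∑ n ∈ range N, ∑ E, |ph b n (ρ x) * F n E x - ph b n (ρ y) * F n E y| :=
            Finset.sum_congr rfl fun n _ => Finset.sum_congr rfl fun E _ => abs_sub_comm _ _
          rw [h2] at h1
          linarith
    · have h1 := glue_upper hb N ρ F (fun n x => hF1 n x) x y (C / 2 * pathDist G ℓ x y)
        (by positivity) (hup x y hx hy)
      have h2 : pathDist G ℓ x y ≤ C * pathDist G ℓ x y := by nlinarith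
      linarith
  · have hy : ¬ G.Reachable y a := fun hy => hx (hxy.trans hy)
    simp only [hx, hy, if_false, sub_self, abs_zero, Finset.sum_const_zero, zero_add]
    have hr : H.Reachable x y := by
      by_contra hr
      exact hx (hmin' x y hxy hr).1
    have e1 : ∑ S : Finset V, |(if x ∈ S then w S else 0) - (if y ∈ S then w S else 0)| =
        cutDist w x y := by
      unfold cutDist
      refine Finset.sum_congr rfl fun S _ => ?_
      unfold sep
      by_cases h1 : x ∈ S <;> by_cases h2 : y ∈ S <;> simp [h1, h2, abs_of_nonneg (hw S)]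
    rw [e1]
    obtain ⟨h1, h2⟩ := hwd x y hr
    have h3 := pathDist_mono hHle hℓ hr
    have h4 : pathDist H ℓ x y ≤ pathDist G ℓ x y := by
      rcases hmin x y hxy hr with h | ⟨h, _⟩
      · exact h
      · exact absurd h hx
    have h5 := pathDist_nonneg hℓ x y
    constructor
    · linarith
    · have : C * pathDist H ℓ x y ≤ C * pathDist G ℓ x y :=
        mul_le_mul_of_nonneg_left h4 (by linarith)
      have h6 : 0 ≤ C * pathDist G ℓ x y := by positivity
      linarith

theorem step_iter (A : Finset V) : ∀ (G : SimpleGraph V) (ℓ : Sym2 V → ℝ),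
    (∀ e ∈ G.edgeSet, 0 < ℓ e) → ∀ {C : ℝ}, 1 ≤ C → CutEmb (del G A) ℓ C →
    CutEmb G ℓ (112 ^ A.card * C) := by
  induction A using Finset.induction_on with
  | empty =>
    intro G ℓ _ C _ h
    have : del G ∅ = G := by ext x y; simp [del]
    rw [this] at h
    simpa using h
  | insert a A ha ih =>
    intro G ℓ hℓ C hC h
    rw [del_insert] at h
    have h1 := step (del G A) ℓ (del_edgeSet A hℓ) a hC h
    have h2 := ih G ℓ hℓ (C := 112 * C) (by linarith) h1
    rw [Finset.card_insert_of_notMem ha, pow_succ]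
    rwa [mul_assoc]

end Vale.Agent.P235
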