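import Mathlib
import Vale.Agent.P235.Step

set_option linter.unusedSectionVars false

open Finset MeasureTheory

namespace Vale.Agent.P235

section ToL1

variable {X : Type} [Fintype X] [DecidableEq X]

/-- a cut metric is realized in `L¹` -/
lemma cut_to_L1 (w : Finset X → ℝ) (hw : ∀ S, 0 ≤ w S) :
    ∃ (Ω : Type) (_ : MeasurableSpace Ω) (μ : Measure Ω) (f : X → Lp ℝ 1 μ),
      ∀ x y, ‖f x - f y‖ = cutDist w x y := by
  classical
  let Ω := Finset X
  letI : MeasurableSpace Ω := ⊤
  haveI : DiscreteMeasurableSpace Ω := ⟨fun _ => trivial⟩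
  let μ : Measure Ω := Measure.count
  haveI : IsFiniteMeasure μ := by infer_instance
  have hm : ∀ x : X, MemLp (fun S : Ω => if x ∈ S then w S else 0) 1 μ := fun x => MemLp.of_discrete
  refine ⟨Ω, inferInstance, μ, fun x => (hm x).toLp _, fun x y => ?_⟩
  rw [← MemLp.toLp_sub, Lp.norm_toLp, eLpNorm_one_eq_lintegral_enorm, lintegral_count,
    tsum_fintype, ENNReal.toReal_sum (fun S _ => by simp)]
  unfold cutDist
  refine Finset.sum_congr rfl fun S _ => ?_
  unfold sep
  rw [toReal_enorm, Pi.sub_apply, Real.norm_eq_abs]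
  by_cases h1 : x ∈ S <;> by_cases h2 : y ∈ S <;> simp [h1, h2, abs_of_nonneg (hw S)]

lemma continuous_lineWeight (S : Finset X) : Continuous (fun g : X → ℝ => lineWeight g S) := by
  unfold lineWeight
  by_cases h : S.Nonempty ∧ Sᶜ.Nonempty
  · simp only [dif_pos h]
    refine continuous_const.max (Continuous.sub ?_ ?_)
    · exact Continuous.finset_inf'_apply h.1 fun i _ => continuous_apply i
    · exact Continuous.finset_sup'_apply h.2 fun i _ => continuous_apply i
  · simp only [dif_neg h]
    exact continuous_const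

lemma lineWeight_le (g : X → ℝ) (S : Finset X) {x y : X} (hx : x ∈ S) (hy : y ∉ S) :
    lineWeight g S ≤ |g x - g y| := by
  have h : S.Nonempty ∧ Sᶜ.Nonempty := ⟨⟨x, hx⟩, ⟨y, by simpa using hy⟩⟩
  rw [lineWeight, dif_pos h]
  refine max_le (abs_nonneg _) ?_
  have h2 : S.inf' h.1 g ≤ g x := Finset.inf'_le _ hx
  have h3 : g y ≤ Sᶜ.sup' h.2 g := Finset.le_sup' _ (by simpa using hy)
  exact (by linarith : S.inf' h.1 g - Sᶜ.sup' h.2 g ≤ g x - g y).trans (le_abs_self _)

/-- a finite subset of an `L¹` space carries a cut metric -/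
lemma L1_to_cut {Ω : Type} [MeasurableSpace Ω] {μ : Measure Ω} (f : X → Lp ℝ 1 μ) :
    ∃ w : Finset X → ℝ, (∀ S, 0 ≤ w S) ∧ ∀ x y, ‖f x - f y‖ = cutDist w x y := by
  classical
  refine ⟨fun S => ∫ ω, lineWeight (fun x => f x ω) S ∂μ,
    fun S => integral_nonneg fun ω => lineWeight_nonneg _ _, fun x y => ?_⟩
  have h1 : ‖f x - f y‖ = ∫ ω, |f x ω - f y ω| ∂μ := by
    rw [L1.norm_eq_integral_norm]
    refine integral_congr_ae ?_
    filter_upwards [Lp.coeFn_sub (f x) (f y)] with ω hω
    rw [hω, Pi.sub_apply, Real.norm_eq_abs]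
  have hmeas : ∀ S : Finset X, AEStronglyMeasurable (fun ω => lineWeight (fun x => f x ω) S) μ := by
    intro S
    have h2 : AEStronglyMeasurable (fun ω => fun x => f x ω) μ := by
      refine AEMeasurable.aestronglyMeasurable ?_
      exact aemeasurable_pi_lambda _ fun x => (Lp.aestronglyMeasurable (f x)).aemeasurable
    exact (continuous_lineWeight S).comp_aestronglyMeasurable h2
  have hint : ∀ S : Finset X, Integrable (fun ω => lineWeight (fun x => f x ω) S * sep S x y) μ := by
    intro S
    have hd : Integrable (fun ω => |f x ω - f y ω|) μ :=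
      ((L1.integrable_coeFn (f x)).sub (L1.integrable_coeFn (f y))).abs
    refine Integrable.mono' hd ((hmeas S).mul_const _) ?_
    refine Filter.Eventually.of_forall fun ω => ?_
    rw [Real.norm_eq_abs, abs_mul, abs_of_nonneg (lineWeight_nonneg _ _),
      abs_of_nonneg (sep_nonneg _ _ _)]
    unfold sep
    by_cases hx : x ∈ S <;> by_cases hy : y ∈ S
    · simp [hx, hy]
    · simp only [hx, hy, true_iff, if_false, mul_one]
      exact lineWeight_le _ S hx hy
    · simp only [hx, hy, iff_true, if_false, mul_one]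
      have := lineWeight_le (fun z => f z ω) S hy hx
      rwa [abs_sub_comm] at this
    · simp [hx, hy]
  rw [h1]
  have h3 : ∀ ω, |f x ω - f y ω| = ∑ S, lineWeight (fun x => f x ω) S * sep S x y := fun ω =>
    line_cut (fun x => f x ω) x y
  simp only [h3]
  rw [integral_finset_sum _ fun S _ => hint S]
  unfold cutDist
  refine Finset.sum_congr rfl fun S _ => ?_
  rw [integral_mul_const]

end ToL1

end Vale.Agent.P235
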