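import Mathlib
import Vale.Agent.P235.LOne

set_option linter.unusedSectionVars false

open Finset

namespace Vale.Agent.P235

variable {V : Type} [Fintype V] [DecidableEq V]

lemma walk_dichotomy_set {G : SimpleGraph V} {ℓ : Sym2 V → ℝ} (hℓ : ∀ e ∈ G.edgeSet, 0 < ℓ e)
    (A : Finset V) {x y : V} (p : G.Walk x y) :
    (∃ q : (del G A).Walk x y, (q.edges.map ℓ).sum = (p.edges.map ℓ).sum) ∨
    (∃ a ∈ A, G.Reachable x a ∧ G.Reachable a y ∧
      pathDist G ℓ x a + pathDist G ℓ a y ≤ (p.edges.map ℓ).sum) := by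
  by_cases hA : ∃ a ∈ A, a ∈ p.support
  · right
    obtain ⟨a, haA, ha⟩ := hA
    refine ⟨a, haA, ⟨p.takeUntil a ha⟩, ⟨p.dropUntil a ha⟩, ?_⟩
    have h1 := pathDist_le hℓ (p.takeUntil a ha)
    have h2 := pathDist_le hℓ (p.dropUntil a ha)
    have h3 : (p.edges.map ℓ).sum =
        ((p.takeUntil a ha).edges.map ℓ).sum + ((p.dropUntil a ha).edges.map ℓ).sum := by
      conv_lhs => rw [← p.take_spec ha]
      rw [SimpleGraph.Walk.edges_append, List.map_append, List.sum_append]
    linarith
  · left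
    push Not at hA
    have hp : ∀ e ∈ p.edges, e ∈ (del G A).edgeSet := by
      intro e he
      induction e with
      | _ u v =>
        rw [SimpleGraph.mem_edgeSet]
        refine ⟨p.adj_of_mem_edges he, ?_, ?_⟩
        · intro hu
          exact hA u hu (p.fst_mem_support_of_mem_edges he)
        · intro hv
          exact hA v hv (p.snd_mem_support_of_mem_edges he)
    exact ⟨p.transfer _ hp, by rw [SimpleGraph.Walk.edges_transfer]⟩

open Classical in
/-- Removing a vertex set `A` lying on a geodesic that starts at `o ∈ A`. -/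
theorem step_geo (G : SimpleGraph V) (hG : G.Connected) (ℓ : Sym2 V → ℝ)
    (hℓ : ∀ e ∈ G.edgeSet, 0 < ℓ e) (A : Finset V) (o : V) (ho : o ∈ A)
    (hA : ∀ p ∈ A, ∀ q ∈ A, |pathDist G ℓ p o - pathDist G ℓ q o| = pathDist G ℓ p q)
    {C : ℝ} (hC : 1 ≤ C) (h : CutEmb (del G A) ℓ C) : CutEmb G ℓ (450 * C) := by
  obtain ⟨w, hw, hwd⟩ := h
  have hcon : ∀ x y, G.Reachable x y := fun x y => hG.preconnected x y
  have hAne : A.Nonempty := ⟨o, ho⟩
  set H := del G A with hH
  have hℓH : ∀ e ∈ H.edgeSet, 0 < ℓ e := del_edgeSet A hℓ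
  -- distance to `A`
  set ρ : V → ℝ := fun x => A.inf' hAne (fun p => pathDist G ℓ x p) with hρ
  have hρle : ∀ x, ∀ p ∈ A, ρ x ≤ pathDist G ℓ x p := fun x p hp => Finset.inf'_le _ hp
  have hρex : ∀ x, ∃ p ∈ A, ρ x = pathDist G ℓ x p := fun x =>
    Finset.exists_mem_eq_inf' hAne (fun p => pathDist G ℓ x p)
  have hρ0 : ∀ x, 0 ≤ ρ x := fun x => by
    obtain ⟨p, _, hp⟩ := hρex x
    rw [hp]; exact pathDist_nonneg hℓ x p
  have hρpos : ∀ x, x ∉ A → 0 < ρ x := fun x hx => by
    obtain ⟨p, hpA, hp⟩ := hρex x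
    rw [hp]; exact pathDist_pos hℓ (hcon x p) (fun h => hx (h ▸ hpA))
  have hρA : ∀ x, x ∈ A → ρ x = 0 := fun x hx =>
    le_antisymm ((hρle x x hx).trans (pathDist_self hℓ x).le) (hρ0 x)
  obtain ⟨b, hb, hb2⟩ : ∃ b : ℝ, 0 < b ∧ ∀ x, x ∉ A → 2 * b ≤ ρ x := by
    let s : Finset V := univ.filter fun x => x ∉ A
    rcases s.eq_empty_or_nonempty with hs | hs
    · refine ⟨1, one_pos, fun x h1 => ?_⟩
      have : x ∈ s := by simp [s, h1]
      rw [hs] at this; simp at this
    · obtain ⟨x0, hx0, hmin⟩ := Finset.exists_min_image s ρ hs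
      have hx0' : x0 ∉ A := by simpa [s] using hx0
      refine ⟨ρ x0 / 2, ?_, fun x h1 => ?_⟩
      · have := hρpos x0 hx0'
        linarith
      · have := hmin x (by simp [s, h1])
        linarith
  obtain ⟨N, hN⟩ : ∃ N : ℕ, ∀ x, ρ x ≤ sc b N := by
    have h1 : ∀ x, ∃ n : ℕ, ρ x ≤ sc b n := by
      intro x
      obtain ⟨n, hn⟩ := pow_unbounded_of_one_lt (ρ x / b) (one_lt_two)
      refine ⟨n, ?_⟩
      unfold sc
      rw [div_lt_iff₀ hb] at hn
      linarith
    choose n hn using h1
    refine ⟨univ.sup n, fun x => (hn x).trans ?_⟩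
    unfold sc
    apply mul_le_mul_of_nonneg_left _ hb.le
    exact pow_le_pow_right₀ (by norm_num) (Finset.le_sup (mem_univ x))
  choose F hF1 hF2 hF3 using fun n : ℕ => trunc H w hw (sc_pos hb n)
  -- distances facts
  have hsymm : ∀ x y, pathDist G ℓ x y = pathDist G ℓ y x := fun x y => pathDist_comm hℓ (hcon x y)
  have htri : ∀ x y z, pathDist G ℓ x z ≤ pathDist G ℓ x y + pathDist G ℓ y z := fun x y z =>
    pathDist_triangle hℓ (hcon x y) (hcon y z)
  have hρlip : ∀ x y, |ρ x - ρ y| ≤ pathDist G ℓ x y := by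
    have h1 : ∀ x y, ρ x - ρ y ≤ pathDist G ℓ x y := by
      intro x y
      obtain ⟨p, hpA, hp⟩ := hρex y
      have h2 := hρle x p hpA
      have h3 := htri x y p
      linarith
    intro x y
    rw [abs_le]
    have := h1 x y
    have := h1 y x
    rw [hsymm y x] at this
    constructor <;> linarith
  have holip : ∀ x y, |pathDist G ℓ x o - pathDist G ℓ y o| ≤ pathDist G ℓ x y := by
    intro x y
    rw [abs_le]
    have h1 := htri x y o
    have h2 := htri y x o
    rw [hsymm y x] at h2
    constructor <;> linarith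
  -- far pairs are seen by the distance to `o`
  have hfar : ∀ x y, pathDist G ℓ x y - 2 * (ρ x + ρ y) ≤
      |pathDist G ℓ x o - pathDist G ℓ y o| := by
    intro x y
    obtain ⟨p, hpA, hp⟩ := hρex x
    obtain ⟨q, hqA, hq⟩ := hρex y
    have h1 := hA p hpA q hqA
    have h2 := htri x p y
    have h3 := htri p q y
    rw [hsymm q y] at h3
    have h4 := htri x p o
    have h5 := htri p x o
    rw [hsymm p x] at h5
    have h6 := htri y q o
    have h7 := htri q y o
    rw [hsymm q y] at h7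
    have h8 : pathDist G ℓ p q ≤ |pathDist G ℓ x o - pathDist G ℓ y o| + ρ x + ρ y := by
      rw [← h1, abs_le]
      have h9 := le_abs_self (pathDist G ℓ x o - pathDist G ℓ y o)
      have h10 := neg_abs_le (pathDist G ℓ x o - pathDist G ℓ y o)
      constructor <;> linarith
    linarith
  have hmin : ∀ x y, H.Reachable x y →
      pathDist H ℓ x y ≤ pathDist G ℓ x y ∨ ρ x + ρ y ≤ pathDist G ℓ x y := by
    intro x y hHxy
    have : min (pathDist H ℓ x y) (ρ x + ρ y) ≤ pathDist G ℓ x y := by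
      refine le_pathDist (hcon x y) fun p => ?_
      rcases walk_dichotomy_set hℓ A p with ⟨q, hq⟩ | ⟨a, ha, _, h4, h5⟩
      · rw [← hq]
        exact (min_le_left _ _).trans (pathDist_le hℓH q)
      · refine (min_le_right _ _).trans ?_
        rw [pathDist_comm hℓ h4] at h5
        have := hρle x a ha
        have := hρle y a ha
        linarith
    exact min_le_iff.1 this
  have hmin' : ∀ x y, ¬ H.Reachable x y → ρ x + ρ y ≤ pathDist G ℓ x y := by
    intro x y hHxy
    refine le_pathDist (hcon x y) fun p => ?_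
    rcases walk_dichotomy_set hℓ A p with ⟨q, _⟩ | ⟨a, ha, _, h4, h5⟩
    · exact absurd ⟨q⟩ hHxy
    · rw [pathDist_comm hℓ h4] at h5
      have := hρle x a ha
      have := hρle y a ha
      linarith
  have hHle : H ≤ G := del_le G A
  have hup : ∀ x y, ∀ n, sc b n ≤ ρ y →
      ∑ E, |F n E x - F n E y| ≤ C / 2 * pathDist G ℓ x y := by
    intro x y n hn
    have hd0 := pathDist_nonneg hℓ x y
    have hCd : pathDist G ℓ x y ≤ C * pathDist G ℓ x y := by nlinarith
    by_cases hr : H.Reachable x y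
    · rw [hF2 n x y hr]
      rcases hmin x y hr with h1 | h1
      · have h2 := one_sub_exp_le (D := cutDist w x y) (sc_pos hb n)
        have h3 := (hwd x y hr).2
        have h4 : C * pathDist H ℓ x y ≤ C * pathDist G ℓ x y :=
          mul_le_mul_of_nonneg_left h1 (by linarith)
        linarith
      · have h2 := one_sub_exp_le' (D := cutDist w x y) (sc_pos hb n)
        have := hρ0 x
        linarith
    · rw [hF3 n x y hr]
      have h1 := hmin' x y hr
      have := hρ0 x
      linarith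
  have hlow : ∀ x y, pathDist G ℓ x y ≤ 4 * (ρ x + ρ y) → ρ y ≤ ρ x → ∀ n, ρ x ≤ 4 * sc b n →
      pathDist G ℓ x y / 128 ≤ ∑ E, |F n E x - F n E y| := by
    intro x y h1 hyx n hn
    have hd0 := pathDist_nonneg hℓ x y
    by_cases hr : H.Reachable x y
    · rw [hF2 n x y hr]
      have h2 := (hwd x y hr).1
      have h3 := pathDist_mono hHle hℓ hr
      have h4 := le_one_sub_exp (T := sc b n) (D := cutDist w x y) (m := pathDist G ℓ x y / 32)
        (sc_pos hb n) (by linarith) (by linarith) (by linarith)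
      linarith
    · rw [hF3 n x y hr]
      linarith
  -- the coordinates
  let g : ((Fin N × Finset (Finset V ⊕ V)) ⊕ Unit ⊕ Unit) → V → ℝ :=
    Sum.elim (fun nE x => 128 * (ph b nE.1 (ρ x) * F nE.1 nE.2 x))
      (Sum.elim (fun _ x => 192 * ρ x) (fun _ x => 2 * pathDist G ℓ x o))
  obtain ⟨w', hw', hww⟩ := coords_cut (V := V) univ g
  refine ⟨w', hw', fun x y _ => ?_⟩
  rw [← hww x y, Fintype.sum_sum_type, Fintype.sum_sum_type]
  simp only [g, Sum.elim_inl, Sum.elim_inr, Finset.univ_unique, Finset.sum_singleton]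
  have e1 : ∑ nE : Fin N × Finset (Finset V ⊕ V),
      |128 * (ph b nE.1 (ρ x) * F nE.1 nE.2 x) - 128 * (ph b nE.1 (ρ y) * F nE.1 nE.2 y)| =
      128 * ∑ n ∈ range N, ∑ E, |ph b n (ρ x) * F n E x - ph b n (ρ y) * F n E y| := by
    rw [Fintype.sum_prod_type, Finset.mul_sum]
    rw [← Fin.sum_univ_eq_sum_range
      (fun n => 128 * ∑ E, |ph b n (ρ x) * F n E x - ph b n (ρ y) * F n E y|) N]
    refine Finset.sum_congr rfl fun n _ => ?_
    rw [Finset.mul_sum]
    refine Finset.sum_congr rfl fun E _ => ?_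
    rw [← mul_sub, abs_mul, abs_of_pos (by norm_num : (0:ℝ) < 128)]
  have e2 : |192 * ρ x - 192 * ρ y| = 192 * |ρ x - ρ y| := by
    rw [← mul_sub, abs_mul, abs_of_pos (by norm_num : (0:ℝ) < 192)]
  have e3 : |2 * pathDist G ℓ x o - 2 * pathDist G ℓ y o| =
      2 * |pathDist G ℓ x o - pathDist G ℓ y o| := by
    rw [← mul_sub, abs_mul, abs_of_pos (by norm_num : (0:ℝ) < 2)]
  rw [e1, e2, e3]
  have hd0 := pathDist_nonneg hℓ x y
  have hd2 := hρlip x y
  have hd3 := holip x y
  have h0 : 0 ≤ ∑ n ∈ range N, ∑ E, |ph b n (ρ x) * F n E x - ph b n (ρ y) * F n E y| := by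
    positivity
  have h0' := abs_nonneg (ρ x - ρ y)
  have h0'' := abs_nonneg (pathDist G ℓ x o - pathDist G ℓ y o)
  constructor
  · -- lower bound
    rcases le_total (4 * (ρ x + ρ y)) (pathDist G ℓ x y) with hf | hf
    · have := hfar x y
      linarith
    · rcases le_total (ρ y) (ρ x) with hle | hle
      · by_cases hxa : x ∈ A
        · have hρx : ρ x = 0 := hρA x hxa
          have : pathDist G ℓ x y ≤ 0 := by linarith
          linarith
        · have := glue_lower hb N ρ F (fun n x => hF1 n x) x y (pathDist G ℓ x y / 128)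
            (hb2 x hxa) (hN x) (hlow x y hf hle)
          linarith
      · by_cases hya : y ∈ A
        · have hρy : ρ y = 0 := hρA y hya
          have : pathDist G ℓ x y ≤ 0 := by linarith
          linarith
        · have h1 := glue_lower hb N ρ F (fun n x => hF1 n x) y x (pathDist G ℓ y x / 128)
            (hb2 y hya) (hN y) (hlow y x (by rw [hsymm y x]; linarith) hle)
          rw [hsymm y x, abs_sub_comm] at h1
          have h2 : ∑ n ∈ range N, ∑ E, |ph b n (ρ y) * F n E y - ph b n (ρ x) * F n E x| =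
              ∑ n ∈ range N, ∑ E, |ph b n (ρ x) * F n E x - ph b n (ρ y) * F n E y| :=
            Finset.sum_congr rfl fun n _ => Finset.sum_congr rfl fun E _ => abs_sub_comm _ _
          rw [h2] at h1
          linarith
  · have h1 := glue_upper hb N ρ F (fun n x => hF1 n x) x y (C / 2 * pathDist G ℓ x y)
      (by positivity) (hup x y)
    have h2 : pathDist G ℓ x y ≤ C * pathDist G ℓ x y := by nlinarith
    linarith

end Vale.Agent.P235
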