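import Mathlib
import Vale.Agent.P235.Geo

set_option linter.unusedSectionVars false

open Finset

namespace Vale.Agent.P235

section CutForm

variable {V : Type} [Fintype V] [DecidableEq V]

lemma embedsL1_of_cut {d : V → V → ℝ} {C : ℝ} (w : Finset V → ℝ) (hw : ∀ S, 0 ≤ w S)
    (h : ∀ x y, d x y ≤ cutDist w x y ∧ cutDist w x y ≤ C * d x y) : EmbedsL1 d C := by
  obtain ⟨Ω, mΩ, μ, f, hf⟩ := cut_to_L1 w hw
  exact ⟨Ω, mΩ, μ, f, fun x y => by rw [hf x y]; exact h x y⟩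

lemma cut_of_embedsL1 {d : V → V → ℝ} {C : ℝ} (h : EmbedsL1 d C) :
    ∃ w : Finset V → ℝ, (∀ S, 0 ≤ w S) ∧
      ∀ x y, d x y ≤ cutDist w x y ∧ cutDist w x y ≤ C * d x y := by
  obtain ⟨Ω, mΩ, μ, f, hf⟩ := h
  obtain ⟨w, hw, hww⟩ := L1_to_cut f
  exact ⟨w, hw, fun x y => by rw [← hww x y]; exact hf x y⟩

lemma embedsL1_of_cutEmb {G : SimpleGraph V} (hG : G.Connected) {ℓ : Sym2 V → ℝ} {C : ℝ}
    (h : CutEmb G ℓ C) : EmbedsL1 (pathDist G ℓ) C := by
  obtain ⟨w, hw, hwd⟩ := h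
  exact embedsL1_of_cut w hw fun x y => hwd x y (hG.preconnected x y)

end CutForm

section Comp

variable {V : Type} {G : SimpleGraph V} {A : Finset V}

/-- the vertex type of a component of `G - A` -/
abbrev CV (c : (G.induce ((A : Set V)ᶜ)).ConnectedComponent) : Type := c.supp

/-- a component of `G - A` -/
abbrev CG (c : (G.induce ((A : Set V)ᶜ)).ConnectedComponent) : SimpleGraph (CV c) :=
  (G.induce ((A : Set V)ᶜ)).induce c.supp

/-- the inclusion of a component of `G - A` into `del G A` -/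
def compHom (c : (G.induce ((A : Set V)ᶜ)).ConnectedComponent) : CG c →g del G A where
  toFun z := z.1.1
  map_rel' {a b} h := by
    have h' : G.Adj a.1.1 b.1.1 := h
    exact ⟨h', fun h => a.1.2 (Finset.mem_coe.2 h), fun h => b.1.2 (Finset.mem_coe.2 h)⟩

lemma down_walk (ℓ : Sym2 V → ℝ) (c : (G.induce ((A : Set V)ᶜ)).ConnectedComponent) {u v : CV c}
    (q : (CG c).Walk u v) :
    ((q.map (compHom c)).edges.map ℓ).sum =
      (q.edges.map (fun e => ℓ (e.map fun z => z.1.1))).sum := by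
  rw [SimpleGraph.Walk.edges_map, List.map_map]
  rfl

lemma up_walk (ℓ : Sym2 V → ℝ) (c : (G.induce ((A : Set V)ᶜ)).ConnectedComponent) {x y : V}
    (p : (del G A).Walk x y) : ∀ (hx : x ∈ ((A : Set V)ᶜ)) (hcx : (⟨x, hx⟩ : ((A : Set V)ᶜ : Set V)) ∈ c.supp),
    ∃ (hy : y ∈ ((A : Set V)ᶜ)) (hcy : (⟨y, hy⟩ : ((A : Set V)ᶜ : Set V)) ∈ c.supp)
      (q : (CG c).Walk ⟨⟨x, hx⟩, hcx⟩ ⟨⟨y, hy⟩, hcy⟩),
      (q.edges.map (fun e => ℓ (e.map fun z => z.1.1))).sum = (p.edges.map ℓ).sum := by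
  induction p with
  | nil =>
    intro hx hcx
    exact ⟨hx, hcx, SimpleGraph.Walk.nil, by simp⟩
  | @cons x z y hadj p ih =>
    intro hx hcx
    have hz : z ∈ ((A : Set V)ᶜ) := fun h => hadj.2.2 (Finset.mem_coe.1 h)
    have hadj' : (G.induce ((A : Set V)ᶜ)).Adj ⟨x, hx⟩ ⟨z, hz⟩ := hadj.1
    have hcz : (⟨z, hz⟩ : ((A : Set V)ᶜ : Set V)) ∈ c.supp := by
      have h1 : (G.induce ((A : Set V)ᶜ)).connectedComponentMk ⟨x, hx⟩ = c := hcx
      change (G.induce ((A : Set V)ᶜ)).connectedComponentMk ⟨z, hz⟩ = c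
      rw [← h1]
      exact (SimpleGraph.ConnectedComponent.connectedComponentMk_eq_of_adj hadj').symm
    obtain ⟨hy, hcy, q, hq⟩ := ih hz hcz
    have hadj'' : (CG c).Adj ⟨⟨x, hx⟩, hcx⟩ ⟨⟨z, hz⟩, hcz⟩ := hadj'
    refine ⟨hy, hcy, SimpleGraph.Walk.cons hadj'' q, ?_⟩
    rw [SimpleGraph.Walk.edges_cons, SimpleGraph.Walk.edges_cons, List.map_cons, List.map_cons,
      List.sum_cons, List.sum_cons, hq]
    rfl

variable [Fintype V] [DecidableEq V]

open Classical in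
theorem cutEmb_of_components (ℓ : Sym2 V → ℝ) (hℓ : ∀ e ∈ G.edgeSet, 0 < ℓ e)
    {C : ℝ} 
    (h : ∀ c : (G.induce ((A : Set V)ᶜ)).ConnectedComponent,
      EmbedsL1 (pathDist (CG c) (fun e => ℓ (e.map fun z => z.1.1))) C) :
    CutEmb (del G A) ℓ C := by
  have hℓH : ∀ e ∈ (del G A).edgeSet, 0 < ℓ e := del_edgeSet A hℓ
  have hℓc : ∀ c : (G.induce ((A : Set V)ᶜ)).ConnectedComponent,
      ∀ e ∈ (CG c).edgeSet, 0 < ℓ (e.map fun z => z.1.1) := by
    intro c e he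
    induction e with
    | _ a b =>
      rw [SimpleGraph.mem_edgeSet] at he
      have h' : G.Adj a.1.1 b.1.1 := he
      exact hℓ _ ((SimpleGraph.mem_edgeSet G).2 h')
  have h' : ∀ c : (G.induce ((A : Set V)ᶜ)).ConnectedComponent,
      ∃ w : Finset (CV c) → ℝ, (∀ S, 0 ≤ w S) ∧
      ∀ x y, pathDist (CG c) (fun e => ℓ (e.map fun z => z.1.1)) x y ≤ cutDist w x y ∧
        cutDist w x y ≤ C * pathDist (CG c) (fun e => ℓ (e.map fun z => z.1.1)) x y :=
    fun c => cut_of_embedsL1 (h c)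
  choose w hw hwd using h'
  let g : (Σ c : (G.induce ((A : Set V)ᶜ)).ConnectedComponent, Finset (CV c)) → V → ℝ :=
    fun cS v => if ∃ (h : v ∈ ((A : Set V)ᶜ)) (h' : (⟨v, h⟩ : ((A : Set V)ᶜ : Set V)) ∈ cS.1.supp),
      (⟨⟨v, h⟩, h'⟩ : CV cS.1) ∈ cS.2 then w cS.1 cS.2 else 0
  obtain ⟨w', hw', hww⟩ := coords_cut (V := V) univ g
  refine ⟨w', hw', fun x y hxy => ?_⟩
  by_cases hx : x ∈ ((A : Set V)ᶜ)
  · -- the component of `x`
    let c0 := (G.induce ((A : Set V)ᶜ)).connectedComponentMk ⟨x, hx⟩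
    have hcx : (⟨x, hx⟩ : ((A : Set V)ᶜ : Set V)) ∈ c0.supp := rfl
    obtain ⟨p0⟩ := hxy
    obtain ⟨hy, hcy, q0, hq0⟩ := up_walk ℓ c0 p0 hx hcx
    have hd : pathDist (del G A) ℓ x y = pathDist (CG c0)
        (fun e => ℓ (e.map fun z => z.1.1)) ⟨⟨x, hx⟩, hcx⟩ ⟨⟨y, hy⟩, hcy⟩ := by
      apply le_antisymm
      · refine le_pathDist ⟨q0⟩ fun q => ?_
        rw [← down_walk ℓ c0 q]
        exact pathDist_le hℓH (q.map (compHom c0))
      · refine le_pathDist ⟨p0⟩ fun p => ?_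
        obtain ⟨_, _, q, hq⟩ := up_walk ℓ c0 p hx hcx
        rw [← hq]
        exact pathDist_le (hℓc c0) q
    have hs : cutDist w' x y = cutDist (w c0) ⟨⟨x, hx⟩, hcx⟩ ⟨⟨y, hy⟩, hcy⟩ := by
      rw [← hww x y, ← Finset.univ_sigma_univ, Finset.sum_sigma, Finset.sum_eq_single c0]
      · unfold cutDist
        refine Finset.sum_congr rfl fun S _ => ?_
        have e1 : g ⟨c0, S⟩ x = if (⟨⟨x, hx⟩, hcx⟩ : CV c0) ∈ S then w c0 S else 0 := by
          simp only [g]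
          congr 1
          exact propext ⟨fun ⟨_, _, h⟩ => h, fun h => ⟨hx, hcx, h⟩⟩
        have e2 : g ⟨c0, S⟩ y = if (⟨⟨y, hy⟩, hcy⟩ : CV c0) ∈ S then w c0 S else 0 := by
          simp only [g]
          congr 1
          exact propext ⟨fun ⟨_, _, h⟩ => h, fun h => ⟨hy, hcy, h⟩⟩
        rw [e1, e2]
        unfold sep
        by_cases h1 : (⟨⟨x, hx⟩, hcx⟩ : CV c0) ∈ S <;> by_cases h2 : (⟨⟨y, hy⟩, hcy⟩ : CV c0) ∈ S <;>
          simp [h1, h2, abs_of_nonneg (hw c0 S)]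
      · intro c _ hc
        refine Finset.sum_eq_zero fun S _ => ?_
        have e1 : g ⟨c, S⟩ x = 0 := by
          simp only [g]
          rw [if_neg]
          rintro ⟨_, h', _⟩
          exact hc (Eq.symm h')
        have e2 : g ⟨c, S⟩ y = 0 := by
          simp only [g]
          rw [if_neg]
          rintro ⟨_, h', _⟩
          have h1 : (G.induce ((A : Set V)ᶜ)).connectedComponentMk ⟨y, hy⟩ = c := h'
          have h2 : (G.induce ((A : Set V)ᶜ)).connectedComponentMk ⟨y, hy⟩ = c0 := hcy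
          exact hc (h1.symm.trans h2)
        rw [e1, e2]; simp
      · simp
    rw [hd, hs]
    exact hwd c0 _ _
  · -- `x ∈ A` is isolated
    have hxA : x ∈ A := by simpa using hx
    have hxy' : x = y := by
      obtain ⟨p⟩ := hxy
      cases p with
      | nil => rfl
      | cons hadj _ => exact absurd hxA hadj.2.1
    subst hxy'
    rw [pathDist_self hℓH, ← hww x x]
    simp

end Comp

end Vale.Agent.P235
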