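import Mathlib
import Vale.Agent.P235.Comp

set_option linter.unusedSectionVars false

open Finset

namespace Vale.Agent.P235

section OneSum

variable {V : Type} {G : SimpleGraph V}

/-- the projection of `V` onto one side of a separation at a cut vertex -/
noncomputable def proj (S : Set V) (v : V) (hv : v ∈ S) (x : V) : S := by
  classical exact if h : x ∈ S then ⟨x, h⟩ else ⟨v, hv⟩

lemma proj_mem {S : Set V} {v : V} (hv : v ∈ S) {x : V} (hx : x ∈ S) : proj S v hv x = ⟨x, hx⟩ := by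
  unfold proj; rw [dif_pos hx]

lemma proj_not_mem {S : Set V} {v : V} (hv : v ∈ S) {x : V} (hx : x ∉ S) :
    proj S v hv x = ⟨v, hv⟩ := by
  unfold proj; rw [dif_neg hx]

/-- lengths restricted to an induced subgraph -/
lemma ind_pos {ℓ : Sym2 V → ℝ} (hℓ : ∀ e ∈ G.edgeSet, 0 < ℓ e) (S : Set V) :
    ∀ e ∈ (G.induce S).edgeSet, 0 < ℓ (e.map Subtype.val) := by
  intro e he
  induction e with
  | _ a b =>
    rw [SimpleGraph.mem_edgeSet] at he
    have h' : G.Adj a.1 b.1 := he
    exact hℓ _ ((SimpleGraph.mem_edgeSet G).2 h')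

lemma pathDist_ind_le {ℓ : Sym2 V → ℝ} (hℓ : ∀ e ∈ G.edgeSet, 0 < ℓ e) (S : Set V) {a b : S}
    (h : (G.induce S).Reachable a b) :
    pathDist G ℓ a.1 b.1 ≤ pathDist (G.induce S) (fun e => ℓ (e.map Subtype.val)) a b := by
  refine le_pathDist h fun p => ?_
  have := pathDist_le hℓ (p.map (SimpleGraph.Embedding.induce S).toHom)
  rw [SimpleGraph.Walk.edges_map, List.map_map] at this
  exact this

lemma pathDist_adj {ℓ : Sym2 V → ℝ} (hℓ : ∀ e ∈ G.edgeSet, 0 < ℓ e) {x z : V} (h : G.Adj x z) :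
    pathDist G ℓ x z ≤ ℓ s(x, z) := by
  have := pathDist_le hℓ (SimpleGraph.Walk.cons h SimpleGraph.Walk.nil)
  simpa using this

theorem oneSum_aux {ℓ : Sym2 V → ℝ} (hℓ : ∀ e ∈ G.edgeSet, 0 < ℓ e) (S T : Set V) (v : V)
    (hvS : v ∈ S) (hvT : v ∈ T) (hST : ∀ x, x ∈ S ∨ x ∈ T) (hv : ∀ x, x ∈ S → x ∈ T → x = v)
    (hE : ∀ x y, G.Adj x y → (x ∈ S ∧ y ∈ S) ∨ (x ∈ T ∧ y ∈ T))
    (hS : (G.induce S).Connected) (hT : (G.induce T).Connected)  (hG : G.Connected) (x y : V) :
    pathDist G ℓ x y = pathDist (G.induce S) (fun e => ℓ (e.map Subtype.val)) (proj S v hvS x)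
      (proj S v hvS y) + pathDist (G.induce T) (fun e => ℓ (e.map Subtype.val)) (proj T v hvT x)
      (proj T v hvT y) := by
  have pT : ∀ {x : V}, x ∈ S → proj T v hvT x = ⟨v, hvT⟩ := by
    intro x hx
    by_cases h : x ∈ T
    · have := hv x hx h
      subst this
      rw [proj_mem hvT h]
    · exact proj_not_mem hvT h
  have pS : ∀ {x : V}, x ∈ T → proj S v hvS x = ⟨v, hvS⟩ := by
    intro x hx
    by_cases h : x ∈ S
    · have := hv x h hx
      subst this
      rw [proj_mem hvS h]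
    · exact proj_not_mem hvS h
  have hℓS := ind_pos hℓ S
  have hℓT := ind_pos hℓ T
  apply le_antisymm
  · rcases hST x with hx | hx <;> rcases hST y with hy | hy
    · rw [proj_mem hvS hx, proj_mem hvS hy]
      have h1 := pathDist_ind_le hℓ S (hS.preconnected ⟨x, hx⟩ ⟨y, hy⟩)
      have h2 := pathDist_nonneg hℓT (proj T v hvT x) (proj T v hvT y)
      simp only at h1
      linarith
    · rw [proj_mem hvS hx, proj_mem hvT hy, pS hy, pT hx]
      have h1 := pathDist_ind_le hℓ S (hS.preconnected ⟨x, hx⟩ ⟨v, hvS⟩)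
      have h2 := pathDist_ind_le hℓ T (hT.preconnected ⟨v, hvT⟩ ⟨y, hy⟩)
      have h3 := pathDist_triangle hℓ (hG.preconnected x v) (hG.preconnected v y)
      simp only at h1 h2
      linarith
    · rw [proj_mem hvS hy, proj_mem hvT hx, pS hx, pT hy]
      have h1 := pathDist_ind_le hℓ T (hT.preconnected ⟨x, hx⟩ ⟨v, hvT⟩)
      have h2 := pathDist_ind_le hℓ S (hS.preconnected ⟨v, hvS⟩ ⟨y, hy⟩)
      have h3 := pathDist_triangle hℓ (hG.preconnected x v) (hG.preconnected v y)
      simp only at h1 h2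
      linarith
    · rw [proj_mem hvT hx, proj_mem hvT hy]
      have h1 := pathDist_ind_le hℓ T (hT.preconnected ⟨x, hx⟩ ⟨y, hy⟩)
      have h2 := pathDist_nonneg hℓS (proj S v hvS x) (proj S v hvS y)
      simp only at h1
      linarith
  · refine le_pathDist (hG.preconnected x y) fun p => ?_
    induction p with
    | nil => rw [pathDist_self hℓS, pathDist_self hℓT]; simp
    | @cons x z y hadj p ih =>
      rw [SimpleGraph.Walk.edges_cons, List.map_cons, List.sum_cons]
      have h1 := pathDist_triangle hℓS (hS.preconnected (proj S v hvS x) (proj S v hvS z))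
        (hS.preconnected (proj S v hvS z) (proj S v hvS y))
      have h2 := pathDist_triangle hℓT (hT.preconnected (proj T v hvT x) (proj T v hvT z))
        (hT.preconnected (proj T v hvT z) (proj T v hvT y))
      have h3 : pathDist (G.induce S) (fun e => ℓ (e.map Subtype.val)) (proj S v hvS x)
        (proj S v hvS z) + pathDist (G.induce T) (fun e => ℓ (e.map Subtype.val)) (proj T v hvT x)
        (proj T v hvT z) ≤ ℓ s(x, z) := by
        rcases hE x z hadj with ⟨hx, hz⟩ | ⟨hx, hz⟩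
        · rw [pT hx, pT hz, pathDist_self hℓT, proj_mem hvS hx, proj_mem hvS hz, add_zero]
          have h' : (G.induce S).Adj ⟨x, hx⟩ ⟨z, hz⟩ := hadj
          simpa using pathDist_adj hℓS h'
        · rw [pS hx, pS hz, pathDist_self hℓS, proj_mem hvT hx, proj_mem hvT hz, zero_add]
          have h' : (G.induce T).Adj ⟨x, hx⟩ ⟨z, hz⟩ := hadj
          simpa using pathDist_adj hℓT h'
      linarith

theorem oneSum [Finite V] {ℓ : Sym2 V → ℝ} (hℓ : ∀ e ∈ G.edgeSet, 0 < ℓ e) (S T : Set V) (v : V)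
    (hvS : v ∈ S) (hvT : v ∈ T) (hST : ∀ x, x ∈ S ∨ x ∈ T) (hv : ∀ x, x ∈ S → x ∈ T → x = v)
    (hE : ∀ x y, G.Adj x y → (x ∈ S ∧ y ∈ S) ∨ (x ∈ T ∧ y ∈ T))
    (hS : (G.induce S).Connected) (hT : (G.induce T).Connected)  (hG : G.Connected) {C : ℝ}
    (h1 : EmbedsL1 (pathDist (G.induce S) (fun e => ℓ (e.map Subtype.val))) C)
    (h2 : EmbedsL1 (pathDist (G.induce T) (fun e => ℓ (e.map Subtype.val))) C) :
    EmbedsL1 (pathDist G ℓ) C := by
  classical
  haveI : Fintype V := Fintype.ofFinite V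
  obtain ⟨w1, hw1, hd1⟩ := cut_of_embedsL1 h1
  obtain ⟨w2, hw2, hd2⟩ := cut_of_embedsL1 h2
  let g : (Finset S ⊕ Finset T) → V → ℝ := fun s x =>
    match s with
    | .inl A => if proj S v hvS x ∈ A then w1 A else 0
    | .inr B => if proj T v hvT x ∈ B then w2 B else 0
  obtain ⟨w', hw', hww⟩ := coords_cut (V := V) univ g
  have hs : ∀ x y, cutDist w' x y = cutDist w1 (proj S v hvS x) (proj S v hvS y) +
      cutDist w2 (proj T v hvT x) (proj T v hvT y) := by
    intro x y
    rw [← hww x y, Fintype.sum_sum_type]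
    congr 1
    · unfold cutDist
      refine Finset.sum_congr rfl fun A _ => ?_
      simp only [g]
      unfold sep
      by_cases h1 : proj S v hvS x ∈ A <;> by_cases h2 : proj S v hvS y ∈ A <;>
        simp [h1, h2, abs_of_nonneg (hw1 A)]
    · unfold cutDist
      refine Finset.sum_congr rfl fun A _ => ?_
      simp only [g]
      unfold sep
      by_cases h1 : proj T v hvT x ∈ A <;> by_cases h2 : proj T v hvT y ∈ A <;>
        simp [h1, h2, abs_of_nonneg (hw2 A)]
  refine embedsL1_of_cut w' hw' fun x y => ?_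
  rw [hs, oneSum_aux hℓ S T v hvS hvT hST hv hE hS hT hG x y]
  have e1 := hd1 (proj S v hvS x) (proj S v hvS y)
  have e2 := hd2 (proj T v hvT x) (proj T v hvT y)
  constructor
  · linarith [e1.1, e2.1]
  · rw [mul_add]; linarith [e1.2, e2.2]

end OneSum

end Vale.Agent.P235
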