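import Mathlib
import Vale.Agent.P235.Classes

/-! Weighted graphs built by peeling geodesic sets, for P235. -/

namespace Vale.Agent.P235

/-- The vertex set `A` lies along a geodesic of `(G, ℓ)` starting at a point of `A`: the distance to
this point maps `A` isometrically into the line. -/
def IsGeodesicSet {V : Type} (G : SimpleGraph V) (ℓ : Sym2 V → ℝ) (A : Set V) : Prop :=
  ∃ o ∈ A, ∀ p ∈ A, ∀ q ∈ A, |pathDist G ℓ p o - pathDist G ℓ q o| = pathDist G ℓ p q

/-- Weighted finite connected graphs of peeling depth at most `k`: single vertices have level `0`;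
if `A` is a geodesic set of `(G, ℓ)` and all components of `G - A`, with the restricted lengths,
have level `k`, then `(G, ℓ)` has level `k + 1`; a 1-sum of two weighted graphs of level `k` has
level `k`. -/
inductive PeelLE : ℕ → (V : Type) → SimpleGraph V → (Sym2 V → ℝ) → Prop
  | point (k : ℕ) (V : Type) [Nonempty V] [Subsingleton V] (G : SimpleGraph V) (ℓ : Sym2 V → ℝ) :
      PeelLE k V G ℓ
  | peel (k : ℕ) (V : Type) [Finite V] (G : SimpleGraph V) (hG : G.Connected) (ℓ : Sym2 V → ℝ)
      (A : Set V) (hA : IsGeodesicSet G ℓ A)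
      (h : ∀ c : (G.induce Aᶜ).ConnectedComponent,
        PeelLE k c.supp ((G.induce Aᶜ).induce c.supp) (fun e => ℓ (e.map fun z => z.1.1))) :
      PeelLE (k + 1) V G ℓ
  | oneSum (k : ℕ) (V : Type) [Finite V] (G : SimpleGraph V) (hG : G.Connected) (ℓ : Sym2 V → ℝ)
      (S T : Set V) (v : V) (h : IsOneSum G S T v)
      (hS : PeelLE k S (G.induce S) (fun e => ℓ (e.map Subtype.val)))
      (hT : PeelLE k T (G.induce T) (fun e => ℓ (e.map Subtype.val))) :
      PeelLE k V G ℓ

end Vale.Agent.P235
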