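import Mathlib
import Vale.Agent.P235.OneSum
import Vale.Agent.P235.Peel

set_option linter.unusedSectionVars false

open Finset

namespace Vale.Agent.P235

section Final

variable {V : Type} {G : SimpleGraph V}

lemma IsOneSum.left {S T : Set V} {v : V} (h : IsOneSum G S T v) : v ∈ S :=
  ((Set.ext_iff.1 h.inter v).2 rfl).1

lemma IsOneSum.right {S T : Set V} {v : V} (h : IsOneSum G S T v) : v ∈ T :=
  ((Set.ext_iff.1 h.inter v).2 rfl).2

lemma IsOneSum.symm {S T : Set V} {v : V} (h : IsOneSum G S T v) : IsOneSum G T S v :=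
  ⟨by rw [Set.union_comm]; exact h.union, by rw [Set.inter_comm]; exact h.inter,
    fun x y hxy => (h.edge x y hxy).symm⟩

lemma IsOneSum.mem {S T : Set V} {v : V} (h : IsOneSum G S T v) (x : V) : x ∈ S ∨ x ∈ T := by
  have : x ∈ S ∪ T := by rw [h.union]; trivial
  exact this

lemma IsOneSum.eq {S T : Set V} {v : V} (h : IsOneSum G S T v) (x : V) (hx : x ∈ S) (hx' : x ∈ T) :
    x = v := by
  have : x ∈ S ∩ T := ⟨hx, hx'⟩
  rw [h.inter] at this
  exact this

lemma IsOneSum.connected {S T : Set V} {v : V} (h : IsOneSum G S T v) (hG : G.Connected) :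
    (G.induce S).Connected := by
  have hvS := h.left
  have key : ∀ {x y : V} (p : G.Walk x y),
      (G.induce S).Reachable (proj S v hvS x) (proj S v hvS y) := by
    intro x y p
    induction p with
    | nil => exact SimpleGraph.Reachable.refl _
    | @cons x z y hadj p ih =>
      refine SimpleGraph.Reachable.trans ?_ ih
      rcases h.edge x z hadj with ⟨hx, hz⟩ | ⟨hx, hz⟩
      · rw [proj_mem hvS hx, proj_mem hvS hz]
        exact SimpleGraph.Adj.reachable (show (G.induce S).Adj ⟨x, hx⟩ ⟨z, hz⟩ from hadj)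
      · have e : ∀ {x : V}, x ∈ T → proj S v hvS x = ⟨v, hvS⟩ := by
          intro x hx
          by_cases h' : x ∈ S
          · have := h.eq x h' hx
            subst this
            exact proj_mem hvS h'
          · exact proj_not_mem hvS h'
        rw [e hx, e hz]
  haveI : Nonempty S := ⟨⟨v, hvS⟩⟩
  refine ⟨fun a b => ?_⟩
  obtain ⟨p⟩ := hG.preconnected a.1 b.1
  have := key p
  rwa [proj_mem hvS a.2, proj_mem hvS b.2] at this

/-- closure of distortion bounds under 1-sums, at fixed lengths -/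
theorem oneSum_embeds [Finite V] {ℓ : Sym2 V → ℝ} (hℓ : ∀ e ∈ G.edgeSet, 0 < ℓ e)
    (hG : G.Connected) {S T : Set V} {v : V} (h : IsOneSum G S T v) {C : ℝ}
    (h1 : EmbedsL1 (pathDist (G.induce S) (fun e => ℓ (e.map Subtype.val))) C)
    (h2 : EmbedsL1 (pathDist (G.induce T) (fun e => ℓ (e.map Subtype.val))) C) :
    EmbedsL1 (pathDist G ℓ) C :=
  oneSum hℓ S T v h.left h.right h.mem h.eq h.edge (h.connected hG) (h.symm.connected hG) hG h1 h2

theorem oneSum_C1 [Finite V] (hG : G.Connected) {S T : Set V} {v : V} (h : IsOneSum G S T v) {C : ℝ}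
    (h1 : C1LE (G.induce S) C) (h2 : C1LE (G.induce T) C) : C1LE G C := fun ℓ hℓ =>
  oneSum_embeds hℓ hG h (h1 _ (ind_pos hℓ S)) (h2 _ (ind_pos hℓ T))

lemma comp_pos {ℓ : Sym2 V → ℝ} (hℓ : ∀ e ∈ G.edgeSet, 0 < ℓ e) (S : Set V)
    (c : (G.induce S).ConnectedComponent) :
    ∀ e ∈ ((G.induce S).induce c.supp).edgeSet, 0 < ℓ (e.map fun z => z.1.1) := by
  intro e he
  induction e with
  | _ a b =>
    rw [SimpleGraph.mem_edgeSet] at he
    have h' : G.Adj a.1.1 b.1.1 := he
    exact hℓ _ ((SimpleGraph.mem_edgeSet G).2 h')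

lemma cutEmb_of_components' [Finite V] [Fintype V] [DecidableEq V] (ℓ : Sym2 V → ℝ)
    (hℓ : ∀ e ∈ G.edgeSet, 0 < ℓ e) {C : ℝ} (A : Finset V) (S : Set V) (hS : S = (A : Set V)ᶜ)
    (h : ∀ c : (G.induce S).ConnectedComponent,
      EmbedsL1 (pathDist ((G.induce S).induce c.supp) (fun e => ℓ (e.map fun z => z.1.1))) C) :
    CutEmb (del G A) ℓ C := by
  subst hS
  exact cutEmb_of_components ℓ hℓ h

/-- removing finitely many vertices -/
theorem apex_embeds [Finite V] (hG : G.Connected) {ℓ : Sym2 V → ℝ}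
    (hℓ : ∀ e ∈ G.edgeSet, 0 < ℓ e) {C : ℝ} (hC : 1 ≤ C) (A : Finset V) (S : Set V)
    (hS : S = (A : Set V)ᶜ)
    (h : ∀ c : (G.induce S).ConnectedComponent,
      EmbedsL1 (pathDist ((G.induce S).induce c.supp) (fun e => ℓ (e.map fun z => z.1.1))) C) :
    EmbedsL1 (pathDist G ℓ) (112 ^ A.card * C) := by
  classical
  haveI : Fintype V := Fintype.ofFinite V
  exact embedsL1_of_cutEmb hG (step_iter A G ℓ hℓ hC (cutEmb_of_components' ℓ hℓ A S hS h))

theorem apex_C1 [Finite V] (hG : G.Connected) {C : ℝ} (hC : 1 ≤ C) (A : Finset V) (S : Set V)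
    (hS : S = (A : Set V)ᶜ)
    (h : ∀ c : (G.induce S).ConnectedComponent, C1LE ((G.induce S).induce c.supp) C) :
    C1LE G (112 ^ A.card * C) := fun _ hℓ =>
  apex_embeds hG hℓ hC A S hS fun c => h c _ (comp_pos hℓ S c)

/-- removing a geodesic set -/
theorem geo_embeds [Finite V] (hG : G.Connected) {ℓ : Sym2 V → ℝ}
    (hℓ : ∀ e ∈ G.edgeSet, 0 < ℓ e) {C : ℝ} (hC : 1 ≤ C) (A : Set V)
    (hA : IsGeodesicSet G ℓ A)
    (h : ∀ c : (G.induce Aᶜ).ConnectedComponent,
      EmbedsL1 (pathDist ((G.induce Aᶜ).induce c.supp) (fun e => ℓ (e.map fun z => z.1.1))) C) :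
    EmbedsL1 (pathDist G ℓ) (450 * C) := by
  classical
  haveI : Fintype V := Fintype.ofFinite V
  obtain ⟨o, ho, hA⟩ := hA
  refine embedsL1_of_cutEmb hG (step_geo G hG ℓ hℓ A.toFinset o (by simpa using ho) ?_ hC
    (cutEmb_of_components' ℓ hℓ A.toFinset Aᶜ (by simp) h))
  intro p hp q hq
  exact hA p (by simpa using hp) q (by simpa using hq)

lemma embeds_point [Subsingleton V] (ℓ : Sym2 V → ℝ) (hℓ : ∀ e ∈ G.edgeSet, 0 < ℓ e) (C : ℝ) :
    EmbedsL1 (pathDist G ℓ) C := by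
  refine ⟨Unit, inferInstance, 0, fun _ => 0, fun x y => ?_⟩
  have : x = y := Subsingleton.elim x y
  subst this
  rw [pathDist_self hℓ]
  simp

lemma one_le_pow112 (k : ℕ) : (1 : ℝ) ≤ 112 ^ k := one_le_pow₀ (by norm_num)

lemma one_le_pow450 (k : ℕ) : (1 : ℝ) ≤ 450 ^ k := one_le_pow₀ (by norm_num)

theorem twoTreedepth_C1 (k : ℕ) (V : Type) (G : SimpleGraph V) (h : TwoTreedepthLE k V G) :
    C1LE G (112 ^ k) := by
  induction h with
  | point k V G => exact fun ℓ hℓ => embeds_point ℓ hℓ _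
  | apex k V G hG a _ ih =>
    have := apex_C1 hG (one_le_pow112 k) {a} ({a}ᶜ : Set V) (by simp) ih
    rw [Finset.card_singleton, pow_one, ← pow_succ'] at this
    exact this
  | oneSum k V G hG S T v h _ _ ihS ihT => exact oneSum_C1 hG h ihS ihT

theorem peel_embeds (k : ℕ) (V : Type) (G : SimpleGraph V) (ℓ : Sym2 V → ℝ) (h : PeelLE k V G ℓ) :
    (∀ e ∈ G.edgeSet, 0 < ℓ e) → EmbedsL1 (pathDist G ℓ) (450 ^ k) := by
  induction h with
  | point k V G ℓ => exact fun hℓ => embeds_point ℓ hℓ _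
  | peel k V G hG ℓ A hA _ ih =>
    intro hℓ
    have := geo_embeds hG hℓ (one_le_pow450 k) A hA fun c => ih c (comp_pos hℓ _ c)
    rw [← pow_succ'] at this
    exact this
  | oneSum k V G hG ℓ S T v h _ _ ihS ihT =>
    exact fun hℓ => oneSum_embeds hℓ hG h (ihS (ind_pos hℓ S)) (ihT (ind_pos hℓ T))

end Final

end Vale.Agent.P235
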